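import Crest.Agent.N233.Fi.Defs

/-!
# Row 233 (helper79): at a point of minimal displacement a short word has large stable length.
-/

set_option autoImplicit false

namespace Crest.Agent.N233.Fi

open Hyp R179.HM998

namespace Bo

variable {P : Type} {D : P → P → ℝ} {δ : ℝ}

theorem gp_comm (h : FP D δ) (w x y : P) : gp D w x y = gp D w y x := by
  unfold gp; rw [h.comm x y]; ring

/-- one step along a broken geodesic -/
theorem step (h : FP D δ) {κ S : ℝ} (hS : κ + δ < S) {o a b c : P} (h1 : gp D a o b ≤ κ + δ)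
    (h2 : S ≤ D a b) (h3 : gp D b a c ≤ κ) :
    gp D b o c ≤ κ + δ ∧ D o a + (S - κ - δ) ≤ D o b := by
  have e1 := h.comm a o
  have e2 := h.comm b o
  have e3 := h.comm a b
  have e4 := h.comm o b
  constructor
  · by_contra hc
    push Not at hc
    have h4 : min (2 * S - κ - δ) (gp D b o c) ≤ gp D b a o := by
      refine (min_le_left _ _).trans ?_
      unfold gp at h1 ⊢; linarith
    have h5 := h.le o h4 (min_le_right _ _)
    have h6 : κ + δ < min (2 * S - κ - δ) (gp D b o c) := lt_min (by linarith) hc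
    linarith
  · unfold gp at h1; linarith

variable {J : Type} [Group J] [MulAction J P]

theorem gp_smul (hi : ∀ (g : J) x y, D (g • x) (g • y) = D x y) (g : J) (w x y : P) :
    gp D (g • w) (g • x) (g • y) = gp D w x y := by
  simp only [gp, hi]

/-- the broken geodesic `q, s q, s t q, s t s q, …` -/
theorem broken (h : FP D δ) (hi : ∀ (g : J) x y, D (g • x) (g • y) = D x y) {κ S : ℝ}
    (hκ : 0 ≤ κ) (hS : κ + δ < S) {s t : J} {q : P} (hs : S ≤ D q (s • q)) (ht : S ≤ D q (t • q))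
    (h1 : gp D q (s⁻¹ • q) (t • q) ≤ κ) (h2 : gp D q (t⁻¹ • q) (s • q) ≤ κ) (n : ℕ) :
    gp D ((s * t) ^ n • q) q (((s * t) ^ n * s) • q) ≤ κ + δ ∧
      n * (S - κ - δ) ≤ D q ((s * t) ^ n • q) := by
  induction n with
  | zero =>
    have := h.nonneg
    simp only [pow_zero, one_smul, one_mul, gp, h.self, Nat.cast_zero, zero_mul, le_refl, and_true]
    linarith
  | succ n ih =>
    set g := (s * t) ^ n with hg
    have a1 : S ≤ D (g • q) ((g * s) • q) := by rw [mul_smul, hi]; exact hs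
    have a2 : gp D ((g * s) • q) (g • q) ((g * s * t) • q) ≤ κ := by
      rw [← gp_smul hi (g * s)] at h1
      simpa only [smul_smul, mul_inv_cancel_right] using h1
    obtain ⟨b1, b2⟩ := step h hS ih.1 a1 a2
    have a3 : S ≤ D ((g * s) • q) ((g * s * t) • q) := by rw [mul_smul (g * s) t, hi]; exact ht
    have a4 : gp D ((g * s * t) • q) ((g * s) • q) ((g * s * t * s) • q) ≤ κ := by
      rw [← gp_smul hi (g * s * t)] at h2
      simpa only [smul_smul, mul_inv_cancel_right] using h2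
    obtain ⟨b3, b4⟩ := step h hS b1 a3 a4
    have e : (s * t) ^ (n + 1) = g * s * t := by rw [pow_succ, mul_assoc]
    rw [e]
    refine ⟨b3, ?_⟩
    have := ih.2
    push_cast
    linarith

/-- moving the base point towards the common direction -/
theorem move (h : FP D δ) (hi : ∀ (g : J) x y, D (g • x) (g • y) = D x y) {m : ℝ} {q q' x : P}
    (e1 : D q q' = m) (e2 : gp D q q' x = 2 * m) {s : J} (hs : 2 * m ≤ D q (s • q))
    (h1 : 2 * m ≤ gp D q x (s • q)) (h2 : 2 * m ≤ gp D q x (s⁻¹ • q)) :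
    D q' (s • q') ≤ D q (s • q) - 2 * m + 3 * δ := by
  have a1 := h.le x e2.ge h1
  have a2 := h.le x e2.ge h2
  rw [← gp_smul hi s, smul_inv_smul] at a2
  have a3 := (h.gp_le q q' (s • q)).1
  have c1 := h.comm q (s • q)
  have c2 := h.comm q' (s • q)
  have c3 := h.comm q' (s • q')
  have hδ := h.nonneg
  have a4 : 2 * m - δ ≤ gp D (s • q) q q' := by
    unfold gp at a3 ⊢; linarith
  have a5 := h.le q a2 a4
  have a6 := hi s q q'
  unfold gp at a1 a5
  linarith

end Bo

open Bo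

theorem boS : BoS := by
  classical
  intro δ
  refine ⟨4 * (2 * δ + 1) + 2 * δ, fun P d N H J _ _ hi A q l hA hl hm => ?_⟩
  obtain ⟨s0, hs0, hs0l⟩ := hm q
  by_cases hc : l ≤ 4 * (2 * δ + 1) + 2 * δ
  · exact ⟨s0, .inl hs0, fun n => (Nat.mul_le_mul_left n hc).trans (Nat.le_add_left _ _)⟩
  push Not at hc
  set D : P → P → ℝ := fun a b => (d a b : ℝ) with hD
  have h : FP D δ := H.fp
  have hi' : ∀ (g : J) x y, D (g • x) (g • y) = D x y := fun g x y => by simp only [hD, hi]
  set m : ℝ := 2 * δ + 1 with hm'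
  have hc' : 4 * m + 2 * δ < l := by rw [hm']; exact_mod_cast hc
  have hδ : (0 : ℝ) ≤ δ := δ.cast_nonneg
  have hinv : ∀ s : J, D q (s⁻¹ • q) = D q (s • q) := fun s => by
    rw [← hi' s, smul_inv_smul, h.comm]
  have key : ∃ s ∈ A, ∃ t ∈ A, l - 2 * m ≤ D q (s • q) ∧ l - 2 * m ≤ D q (t • q) ∧
      gp D q (s • q) (t • q) < 2 * m := by
    by_contra hk
    push Not at hk
    obtain ⟨τ, hτ⟩ := H.gm.geo q (s0 • q)
    have hle : 2 * δ + 1 ≤ d q (s0 • q) := by omega
    have e1 : D q (τ (2 * δ + 1)) = m := by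
      have := hτ.dist 0 _ (Nat.zero_le _) hle
      rw [hτ.zero] at this
      simp only [hD, this, hm']; push_cast; simp
    have e2 : gp D q (τ (2 * δ + 1)) (s0 • q) = 2 * m := by
      have := hτ.dist _ _ hle le_rfl
      rw [hτ.last] at this
      have e3 : D (τ (2 * δ + 1)) (s0 • q) = D q (s0 • q) - m := by
        simp only [hD, this, hm']; rw [Nat.cast_sub hle]; push_cast; ring
      unfold gp; rw [e1, e3]; ring
    have b0 : (l : ℝ) ≤ D q (s0 • q) := by simp only [hD]; exact_mod_cast hs0l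
    obtain ⟨s, hs, hsl⟩ := hm (τ (2 * δ + 1))
    have b1 : (l : ℝ) ≤ D (τ (2 * δ + 1)) (s • τ (2 * δ + 1)) := by
      simp only [hD]; exact_mod_cast hsl
    have b2 : D q (s • q) ≤ l := by simp only [hD]; exact_mod_cast hl s hs
    by_cases hb : l - 2 * m ≤ D q (s • q)
    · have := move h hi' e1 e2 (s := s) (by linarith) (hk s0 hs0 s hs (by linarith) hb)
        (hk s0 hs0 s⁻¹ (hA s hs) (by linarith) (by rw [hinv]; exact hb))
      linarith
    · have t1 := h.tri (τ (2 * δ + 1)) q (s • τ (2 * δ + 1))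
      have t2 := h.tri q (s • q) (s • τ (2 * δ + 1))
      have t3 := hi' s q (τ (2 * δ + 1))
      have t4 := h.comm (τ (2 * δ + 1)) q
      linarith
  have key2 : ∃ s ∈ A, ∃ t ∈ A, l - 2 * m ≤ D q (s • q) ∧ l - 2 * m ≤ D q (t • q) ∧
      gp D q (s⁻¹ • q) (t • q) ≤ 2 * m + δ ∧ gp D q (t⁻¹ • q) (s • q) ≤ 2 * m + δ := by
    obtain ⟨s, hs, t, ht, h1, h2, h3⟩ := key
    by_cases c1 : gp D q (s⁻¹ • q) (s • q) ≤ 2 * m + δ
    · exact ⟨s, hs, s, hs, h1, h1, c1, c1⟩
    by_cases c2 : gp D q (t⁻¹ • q) (t • q) ≤ 2 * m + δ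
    · exact ⟨t, ht, t, ht, h2, h2, c2, c2⟩
    push Not at c1 c2
    refine ⟨s, hs, t, ht, h1, h2, ?_, ?_⟩
    · by_contra c3
      push Not at c3
      have := h.le (w := q) (x := s • q) (z := t • q) (s⁻¹ • q) (t := 2 * m + δ)
        (by rw [gp_comm h]; exact c1.le) c3.le
      linarith
    · by_contra c3
      push Not at c3
      have := h.le (w := q) (x := s • q) (z := t • q) (t⁻¹ • q) (t := 2 * m + δ)
        (by rw [gp_comm h]; exact c3.le) c2.le
      linarith
  obtain ⟨s, hs, t, ht, h1, h2, h3, h4⟩ := key2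
  refine ⟨s * t, .inr ⟨s, hs, t, ht, rfl⟩, fun n => ?_⟩
  have := (broken h hi' (by positivity) (by linarith) h1 h2 h3 h4 n).2
  have e : ((n * l : ℕ) : ℝ) ≤ ((d q ((s * t) ^ n • q) + n * (4 * (2 * δ + 1) + 2 * δ) : ℕ) : ℝ) := by
    push_cast
    simp only [hD] at this
    rw [hm'] at this
    linarith
  exact_mod_cast e

end Crest.Agent.N233.Fi
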