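import Crest.Agent.N233.Fi.Ms
import Crest.Agent.N233.Fi.Bo

/-!
# Row 233 (helper69): bounded displacement
-/

set_option autoImplicit false

noncomputable section

namespace Crest.Agent.N233.Fi

open Finset Filter

theorem exists_rad {ε : ℝ} (hε : 0 < ε) (κ : ℝ) (n : ℕ) : ∃ L : ℕ, ∀ l, L < l →
    ∃ R : ℕ, n * (R + 1) < l ∧ κ * (l * (R + 1)) ≤ (1 + ε) ^ R ∧ 2 ≤ (1 + ε) ^ R := by
  have h1 : (1 : ℝ) < 1 + ε := by linarith
  have t1 := tendsto_pow_const_div_const_pow_of_one_lt 2 h1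
  obtain ⟨c, hc⟩ : ∃ c : ℝ, c = (|κ| + 1) * (8 * (n + 1)) := ⟨_, rfl⟩
  have c0 : 0 < c := by rw [hc]; positivity
  obtain ⟨R0, h0⟩ := eventually_atTop.1 (((t1.eventually (gt_mem_nhds (inv_pos.2 c0))).and
    ((tendsto_pow_atTop_atTop_of_one_lt h1).eventually_ge_atTop 2)).and (eventually_ge_atTop 1))
  refine ⟨(n + 1) * (R0 + 1), fun l hl => ?_⟩
  obtain ⟨R, hR⟩ : ∃ R, l / (n + 1) = R + 1 ∧ R0 ≤ R := by
    have : R0 + 1 ≤ l / (n + 1) := (Nat.le_div_iff_mul_le n.succ_pos).2 (by nlinarith)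
    exact ⟨l / (n + 1) - 1, by omega, by omega⟩
  obtain ⟨⟨a1, a2⟩, a3⟩ := h0 R hR.2
  have e1 : (n + 1) * (R + 1) ≤ l := hR.1 ▸ Nat.mul_div_le l (n + 1)
  have e2 : l < (n + 1) * (R + 1 + 1) := hR.1 ▸ Nat.lt_mul_div_succ l n.succ_pos
  refine ⟨R, by nlinarith, ?_, a2⟩
  have p : 0 < (1 + ε) ^ R := by positivity
  rw [div_lt_iff₀ p, inv_mul_eq_div, lt_div_iff₀ c0] at a1
  have e3 : (l : ℝ) ≤ (n + 1) * (R + 1 + 1) := by exact_mod_cast e2.le
  have e4 : (1 : ℝ) ≤ R := by exact_mod_cast a3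
  have e5 : (l : ℝ) * (R + 1) ≤ 8 * (n + 1) * R ^ 2 := by
    have : (l : ℝ) * (R + 1) ≤ (n + 1) * (R + 1 + 1) * (R + 1) :=
      mul_le_mul_of_nonneg_right e3 (by positivity)
    have h2 : ((R : ℝ) + 1 + 1) * (R + 1) ≤ 8 * R ^ 2 := by nlinarith
    have h3 := mul_le_mul_of_nonneg_left h2 (by positivity : (0 : ℝ) ≤ n + 1)
    nlinarith
  have e6 : κ * (l * (R + 1)) ≤ (|κ| + 1) * (8 * (n + 1) * R ^ 2) :=
    (mul_le_mul_of_nonneg_right (by linarith [le_abs_self κ]) (by positivity)).trans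
      (mul_le_mul_of_nonneg_left e5 (by positivity))
  rw [hc] at a1
  nlinarith

theorem le_of_lin {a b c : ℝ} (h : ∀ n : ℕ, n * a ≤ n * b + c) : a ≤ b := by
  by_contra k
  obtain ⟨n, hn⟩ := exists_nat_gt (c / (a - b))
  rw [div_lt_iff₀ (by linarith)] at hn
  linarith [h n]

variable {J V E T P H : Type} [Group J] [MulAction J V] [MulAction J E] [MulAction J T]
  (S : Src J V E T)

theorem Src.path {φ : H → V → ℝ} {m : ℝ}
    (h : ∀ e (s : Finset H), ∑ h ∈ s, |φ h (S.tgt e) - φ h (S.src e)| ≤ m) {x : V} {g : J}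
    {c : E →₀ ℝ}
    (hc : ∀ F : V → ℝ, (c.sum fun e a => a * (F (S.tgt e) - F (S.src e))) = F (g • x) - F x)
    (s : Finset H) (n : ℕ) : ∑ h ∈ s, |φ h (g ^ n • x) - φ h x| ≤ n * (n1 c * m) := by
  induction n with
  | zero => simp
  | succ n ih =>
    have : ∑ h ∈ s, |φ h (g ^ (n + 1) • x) - φ h (g ^ n • x)| ≤ n1 c * m := by
      have e : ∀ h, φ h (g ^ (n + 1) • x) - φ h (g ^ n • x) =
          ∑ e ∈ c.support, c e * (φ h (S.tgt (g ^ n • e)) - φ h (S.src (g ^ n • e))) := fun h => by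
        simp only [S.src_smul, S.tgt_smul, pow_succ, mul_smul]
        exact (hc fun y => φ h (g ^ n • y)).symm
      simp only [e]
      refine (sum_le_sum fun h _ => abs_sum_le_sum_abs _ _).trans ?_
      rw [sum_comm, n1, Finsupp.sum, sum_mul]
      refine sum_le_sum fun e _ => ?_
      simp only [abs_mul, ← mul_sum]
      exact mul_le_mul_of_nonneg_left (h _ s) (abs_nonneg _)
    refine (sum_le_sum fun h _ => abs_sub_le _ (φ h (g ^ n • x)) _).trans ?_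
    rw [sum_add_distrib]
    push_cast
    linarith

/-- **all free actions on the walled graph have a point of bounded displacement** -/
theorem mainS : MainS := by
  classical
  intro J V E T _ _ _ _ S P H _ d δ N mem hd hw A
  obtain ⟨σV⟩ := S.fV.sec
  obtain ⟨σE⟩ := S.fE.sec
  obtain ⟨σT⟩ := S.fT.sec
  obtain ⟨x⟩ := S.ne
  obtain ⟨c, hc⟩ := boS δ
  obtain ⟨b, β, hb⟩ := S.B_bdd
  obtain ⟨nb, hnb⟩ := S.Nb_bdd
  let A1 := A ∪ σE.s.image fun e => (σV.c (S.src e))⁻¹ * σV.c (S.tgt e)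
  let A' := A1 ∪ A1.image (·⁻¹)
  have hs : ∀ s ∈ A', s⁻¹ ∈ A' := fun s h => by
    rcases mem_union.1 h with h | h
    · exact mem_union_right _ (mem_image_of_mem _ h)
    · obtain ⟨t, ht, rfl⟩ := mem_image.1 h
      exact mem_union_left _ (by rwa [inv_inv])
  choose ch hch using fun g : J => S.conn (σV.r x) (g • σV.r x)
  obtain ⟨γ, hγ⟩ : ∃ γ : ℝ, ∀ g, (g ∈ A' ∨ ∃ s ∈ A', ∃ t ∈ A', g = s * t) → n1 (ch g) ≤ γ := by
    obtain ⟨γ, hγ⟩ := ((A' ∪ image₂ (· * ·) A' A').finite_toSet.image fun g => n1 (ch g)).bddAbove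
    refine ⟨γ, fun g hg => hγ ⟨g, mem_coe.2 (mem_union.2 (hg.imp_right ?_)), rfl⟩⟩
    rintro ⟨s, hs, t, ht, rfl⟩
    exact mem_image₂_of_mem hs ht
  obtain ⟨Γ, hΓ⟩ := exists_nat_gt (|γ| * (S.C * (σT.s.card * (|β| * b))))
  obtain ⟨M, hM⟩ : ∃ M, M = N (2 * δ + 1) * (2 * (2 * δ + 1)) := ⟨_, rfl⟩
  obtain ⟨D, hD⟩ : ∃ D, D = 16 * Γ * M + 1 := ⟨_, rfl⟩
  have Γ0 : (0 : ℝ) < Γ := lt_of_le_of_lt (by have := S.C_nn; positivity) hΓ
  obtain ⟨ε, hε⟩ : ∃ ε : ℝ, ε = (96 * (Γ : ℝ))⁻¹ := ⟨_, rfl⟩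
  have ε0 : 0 < ε := by rw [hε]; positivity
  obtain ⟨L, hL⟩ := exists_rad ε0
    (1 + σE.s.card * 2 * ((2 * (D + 9 * δ + 4) + 2) * N (3 * δ + 1)))
    (2 * c + 8 * Γ * nb * (3 * D + 23 * δ + 10))
  refine ⟨L, fun hA => ?_⟩
  have ex : ∃ l, ∃ q : P, ∀ s ∈ A', d q (s • q) ≤ l := by
    obtain ⟨q⟩ := ‹Nonempty P›
    exact ⟨A'.sup fun s => d q (s • q), q, fun s hs => le_sup (f := fun s => d q (s • q)) hs⟩
  obtain ⟨q, hq⟩ := Nat.find_spec ex
  obtain ⟨l, hl⟩ : ∃ l, l = Nat.find ex := ⟨_, rfl⟩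
  rw [← hl] at hq
  refine ⟨q, fun s h => (hq s (mem_union_left _ (mem_union_left _ h))).trans ?_⟩
  by_contra lt
  obtain ⟨R, r1, r2, r3⟩ := hL l (not_le.1 lt)
  obtain ⟨g, g1, g2⟩ := hc P d N hd J hA.iso A' q l hs hq fun q' => by
    by_contra k
    push Not at k
    exact Nat.find_min ex (m := l - 1) (by omega) ⟨q', fun s h => by have := k s h; omega⟩
  let f : V → P := fun y => σV.c y • q
  have hf : ∀ (g : J) y, f (g • y) = g • f y := fun g y => by simp only [f, σV.c_smul, mul_smul]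
  have hl' : ∀ e, d (f (S.src e)) (f (S.tgt e)) ≤ l := fun e => by
    rw [← σE.cr e, S.src_smul, S.tgt_smul, hf, hf, hA.iso, ← hA.iso (σV.c (S.src (σE.r e)))⁻¹]
    simp only [f, ← mul_smul]
    rw [inv_mul_cancel, one_smul]
    exact hq _ (mem_union_left _ (mem_union_right _ (mem_image_of_mem _ (σE.mem e))))
  obtain ⟨ρ, hρ⟩ : ∃ ρ, ρ = 2 * (D + 2 * δ) + 6 * δ * (R + R) + 4 * δ + 6 := ⟨_, rfl⟩
  have l1 : (1 : ℝ) ≤ l := by exact_mod_cast (by omega : 1 ≤ l)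
  have hB := Src.ball_card (S := S) (D := D + 2 * δ) (ρ := ρ) (R := R) hA hf hd hw hl' σE (by omega)
  obtain ⟨ψ, hψ⟩ := puS J (H × E) (S.Ad d mem f (D + 2 * δ) ρ) (fun _ _ => Src.Ad.symm)
    (fun g _ _ h => h.smul hA hf g) ε R ε0 r3 fun z => ⟨(hB z).1, by
      refine le_trans (Nat.cast_le.2 (hB z).2) (le_trans ?_ r2)
      have a1 : 2 * (D + 2 * δ + 2 * δ * (R + R) + 3 * δ + 4) + 2 ≤
          (2 * (D + 9 * δ + 4) + 2) * (R + 1) := by nlinarith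
      have a2 : 1 + σE.s.card * (2 * l) *
          ((2 * (D + 2 * δ + 2 * δ * (R + R) + 3 * δ + 4) + 2) * N (3 * δ + 1)) ≤
          (1 + σE.s.card * 2 * ((2 * (D + 9 * δ + 4) + 2) * N (3 * δ + 1))) * (l * (R + 1)) := by
        rw [add_mul 1, one_mul]
        refine add_le_add (Nat.mul_pos (by omega) R.succ_pos) ?_
        calc _ ≤ σE.s.card * (2 * l) * ((2 * (D + 9 * δ + 4) + 2) * (R + 1) * N (3 * δ + 1)) := by
              gcongr
          _ = _ := by ring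
      exact_mod_cast a2⟩
  obtain ⟨Sg, hSg⟩ : ∃ Sg, Sg = 2 * ((l + 1) * M) / D + 2 * (nb * (2 * (ρ + (D + 2 * δ) + δ + 4))) :=
    ⟨_, rfl⟩
  have D0 : 0 < D := by omega
  have hS : ∀ e, {h | S.Cr mem f (h, e) ∧ ¬S.Reg d mem f (D + 2 * δ) ρ (h, e)}.ncard ≤ Sg :=
    fun e => by
      have := Src.sing hd hw hl' hnb D ρ e
      rw [← hM, mul_add, ← mul_assoc 2 (nb * _)] at this
      rw [hSg, ← Nat.add_mul_div_right _ _ D0]
      exact (Nat.le_div_iff_mul_le D0).2 this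
  obtain ⟨φ, Bw, h1, h2⟩ := Src.mass hψ (fun z => (hB z).1) hA hf hd hw hl' σT
    (Src.cell_bd hψ (fun z => (hB z).1) hd hw (β := |β|) ε0.le hl'
      (fun σ => ⟨(hb σ).1, (hb σ).2.trans (le_abs_self β)⟩) hS)
  obtain ⟨m, hm⟩ : ∃ m, m = S.C * (σT.s.card * (|β| * (12 * ε * (b * (2 * l)) + b * Sg))) := ⟨_, rfl⟩
  rw [← hm] at h2
  have f0 : f (σV.r x) = q := by simp only [f, σV.c_r, one_smul]
  have low : ∀ n : ℕ, (d q (g ^ n • q) : ℝ) ≤ n * (n1 (ch g) * m) + 2 * Bw := fun n => by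
    have a1 := S.path h2 (hch g) (hw.fin (g ^ n • q) q).toFinset n
    have a2 := h1 (σV.r x) (hw.fin (g ^ n • q) q).toFinset
    have a3 := h1 (g ^ n • σV.r x) (hw.fin (g ^ n • q) q).toFinset
    rw [hd.gm.comm, ← hw.card, Set.ncard_eq_toFinset_card _ (hw.fin _ _), card_eq_sum_ones]
    push_cast
    refine (sum_le_sum (g := fun h => |φ h (g ^ n • σV.r x) - φ h (σV.r x)| +
      |φ h (σV.r x) - iU mem f h (σV.r x)| + |φ h (g ^ n • σV.r x) - iU mem f h (g ^ n • σV.r x)|)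
      fun h hh => ?_).trans (by rw [sum_add_distrib, sum_add_distrib]; linarith)
    obtain ⟨b1, b2⟩ := (hw.fin _ _).mem_toFinset.1 hh
    simp only [iU, hf, f0, if_pos b1, if_neg b2]
    linarith [le_abs_self (φ h (g ^ n • σV.r x) - φ h (σV.r x)), le_abs_self (φ h (σV.r x) - 0),
      neg_abs_le (φ h (g ^ n • σV.r x) - 1)]
  have fin : (l : ℝ) ≤ n1 (ch g) * m + c := le_of_lin (c := 2 * Bw) fun n => by
    have : ((n * l : ℕ) : ℝ) ≤ (d q (g ^ n • q) + n * c : ℕ) := Nat.cast_le.2 (g2 n)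
    push_cast at this
    linarith [low n]
  have m1 : n1 (ch g) * m ≤ Γ * (24 * ε * l + Sg) := by
    have C0 := S.C_nn
    calc _ ≤ |γ| * m := mul_le_mul_of_nonneg_right ((hγ g g1).trans (le_abs_self γ))
          (by rw [hm]; positivity)
      _ = |γ| * (S.C * (σT.s.card * (|β| * b))) * (24 * ε * l + Sg) := by rw [hm]; ring
      _ ≤ _ := mul_le_mul_of_nonneg_right hΓ.le (by positivity)
  have m2 : Γ * (24 * ε * l) = l / 4 := by rw [hε]; field_simp; norm_num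
  have m3 : 8 * (Γ * (2 * ((l + 1) * M) / D)) ≤ l + 1 := by
    refine le_of_mul_le_mul_right ?_ D0
    have := Nat.div_mul_le_self (2 * ((l + 1) * M)) D
    calc _ = 8 * Γ * (2 * ((l + 1) * M) / D * D) := by ring
      _ ≤ 8 * Γ * (2 * ((l + 1) * M)) := Nat.mul_le_mul_left _ this
      _ = (l + 1) * (16 * Γ * M) := by ring
      _ ≤ _ := Nat.mul_le_mul_left _ (by omega)
  have m4 : 2 * c + 2 * (Γ * (2 * (nb * (2 * (ρ + (D + 2 * δ) + δ + 4))))) < l := by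
    refine lt_of_le_of_lt ?_ r1
    have a1 : ρ + (D + 2 * δ) + δ + 4 ≤ (3 * D + 23 * δ + 10) * (R + 1) := by rw [hρ]; nlinarith
    calc _ ≤ 2 * c * (R + 1) + 2 * (Γ * (2 * (nb * (2 * ((3 * D + 23 * δ + 10) * (R + 1)))))) := by
          refine add_le_add (Nat.le_mul_of_pos_right _ R.succ_pos) ?_
          gcongr
      _ = _ := by ring
  have m5 : 8 * (Γ * Sg) + 8 * c < 6 * l := by rw [hSg, mul_add Γ]; omega
  have m6 : (8 : ℝ) * (Γ * Sg) + 8 * c < 6 * l := by exact_mod_cast m5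
  rw [mul_add, m2] at m1
  linarith

end Crest.Agent.N233.Fi

end
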