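import Crest.Agent.N233.Fi.Ins
import Crest.Agent.N233.Fi.Main
import Crest.Agent.N233.Wu.Inst
import Crest.Agent.N233.Lo.Ps
import Crest.Agent.N255.Da.Fc

/-!
# Row 233 (helper53): `Out G` is finite for all subgroups of finite index of the concrete group
-/

set_option autoImplicit false

noncomputable section

namespace Crest.Agent.N233.Fi.In

open N255 N255.Ra Dv Wu Wu.I Pc PS

theorem ρ3_eq : ρ3 = (Lo.mps Da.D.mir).ρ :=
  MonoidHom.ext fun _ => RelIso.ext fun _ => PV.ext rfl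

/-- from the chamber lemma of the subdivision -/
theorem fin_cham (c : (Lo.mps Da.D.mir).Cham) (n : ℤ) [(Gn Pc.In.χ n).FiniteIndex]
    (G : Subgroup (G0 (rn ρ3 Pc.In.χ n))) [G.FiniteIndex] :
    (MulAut.conj (G := G)).range.FiniteIndex :=
  fin_D Da.D mainS c ρ3 ρ3_eq (Gn Pc.In.χ n) G

/-- from the block certificates -/
theorem fin_blk (hb : Lo.BlkS) (G : Subgroup (G0 (rn ρ3 Pc.In.χ 2))) [G.FiniteIndex] :
    (MulAut.conj (G := G)).range.FiniteIndex :=
  haveI := fi2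
  fin_cham ((Lo.locPs hb Da.loc).cham ⟨1, 0, true⟩) 2 G

/-- subgroups of finite index have a trivial centraliser -/
theorem cen_all (n : ℤ) [(Gn Pc.In.χ n).FiniteIndex] [Nonempty (PV X)]
    (J : Subgroup (G0 (rn ρ3 Pc.In.χ n))) [J.FiniteIndex] (x : G0 (rn ρ3 Pc.In.χ n))
    (hx : ∀ h ∈ J, Commute x h) : x = 1 := by
  have : Infinite (Gn Pc.In.χ n) := by
    refine not_finite_iff_infinite.1 fun _ => ?_
    have := (Subgroup.finite_iff_finite_and_finiteIndex (Gn Pc.In.χ n)).2 ⟨‹_›, ‹_›⟩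
    exact not_finite Pc.In.F3
  exact cen_fi _ (fun f a h => Subtype.ext (ps_free Da.D f a (ρ3_eq ▸ h)))
    (fun f a h => ps_adj Da.D f a (ρ3_eq ▸ h)) J x hx

end Crest.Agent.N233.Fi.In

end
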