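import Crest.Agent.N233.Hyp.Act
import Crest.Agent.N255.Gc.Defs

/-!
# Row 233 (helper69): `Out G` is finite.  Definitions and the statements of the blocks.
-/

set_option autoImplicit false
open Finsupp

noncomputable section

namespace Crest.Agent.N233.Fi

open Hyp R179.HM998

/-- the `ℓ¹` norm -/
def n1 {A : Type} (c : A →₀ ℝ) : ℝ := c.sum fun _ a => |a|

/-- a hyperbolic graph of bounded geometry -/
structure HG {P : Type} (d : P → P → ℕ) (δ : ℕ) (N : ℕ → ℕ) : Prop where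
  gm : IsGM d
  sep : ∀ x y, d x y = 0 → x = y
  fp : FP (fun a b => (d a b : ℝ)) δ
  fin : ∀ x R, {y | d x y ≤ R}.Finite
  card : ∀ x R, {y | d x y ≤ R}.ncard ≤ N R

/-- half spaces that compute the metric -/
structure Wls {P H : Type} (d : P → P → ℕ) (mem : H → P → Prop) : Prop where
  fin : ∀ x y, {h | mem h x ∧ ¬mem h y}.Finite
  card : ∀ x y, {h | mem h x ∧ ¬mem h y}.ncard = d x y

/-- a free isometric action that permutes the half spaces -/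
structure Act (J : Type) {P H : Type} [Group J] [MulAction J P] [MulAction J H] (d : P → P → ℕ)
    (mem : H → P → Prop) : Prop where
  iso : ∀ (g : J) x y, d (g • x) (g • y) = d x y
  mem : ∀ (g : J) h x, mem (g • h) (g • x) ↔ mem h x
  free : ∀ (g : J) (x : P), g • x = x → g = 1

/-- free action with finitely many orbits -/
structure Fc (J X : Type) [Group J] [MulAction J X] : Prop where
  free : ∀ (g : J) (x : X), g • x = x → g = 1
  fin : ∃ s : Finset X, ∀ x : X, ∃ g : J, g • x ∈ s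

/-- a two dimensional complex with a linear isoperimetric inequality for compactly supported
one-cochains -/
structure Src (J V E T : Type) [Group J] [MulAction J V] [MulAction J E] [MulAction J T] where
  src : E → V
  tgt : E → V
  B : T → E →₀ ℝ
  src_smul : ∀ (g : J) e, src (g • e) = g • src e
  tgt_smul : ∀ (g : J) e, tgt (g • e) = g • tgt e
  B_smul : ∀ (g : J) σ e, B (g • σ) (g • e) = B σ e
  fV : Fc J V
  fE : Fc J E
  fT : Fc J T
  ne : Nonempty V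
  cyc : ∀ σ (F : V → ℝ), ((B σ).sum fun e a => a * (F (tgt e) - F (src e))) = 0
  conn : ∀ x y, ∃ c : E →₀ ℝ, ∀ F : V → ℝ, (c.sum fun e a => a * (F (tgt e) - F (src e))) = F y - F x
  C : ℝ
  C_nn : 0 ≤ C
  iso : ∀ Ω : E →₀ ℝ, ∃ (W : V →₀ ℝ) (t : Finset T), ∀ s : Finset E,
    ∑ e ∈ s, |Ω e - (W (tgt e) - W (src e))| ≤ C * ∑ σ ∈ t, |(B σ).sum fun e a => a * Ω e|

section chains
variable {P : Type}

/-- boundary of ordered edges -/
def b1 : (P × P →₀ ℝ) →ₗ[ℝ] (P →₀ ℝ) := linearCombination ℝ fun x => single x.2 1 - single x.1 1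

/-- boundary of ordered triangles -/
def b2 : (P × P × P →₀ ℝ) →ₗ[ℝ] (P × P →₀ ℝ) := linearCombination ℝ fun x =>
  single (x.2.1, x.2.2) 1 - single (x.1, x.2.2) 1 + single (x.1, x.2.1) 1

/-- boundary of ordered tetrahedra -/
def b3 : (P × P × P × P →₀ ℝ) →ₗ[ℝ] (P × P × P →₀ ℝ) := linearCombination ℝ fun x =>
  single (x.2.1, x.2.2.1, x.2.2.2) 1 - single (x.1, x.2.2.1, x.2.2.2) 1 +
    single (x.1, x.2.1, x.2.2.2) 1 - single (x.1, x.2.1, x.2.2.1) 1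

/-- small triangles -/
def Dm2 (d : P → P → ℕ) (D : ℕ) (x : P × P × P) : Prop := d x.1 x.2.1 ≤ D ∧ d x.1 x.2.2 ≤ D

/-- small tetrahedra -/
def Dm3 (d : P → P → ℕ) (D : ℕ) (x : P × P × P × P) : Prop :=
  d x.1 x.2.1 ≤ D ∧ d x.1 x.2.2.1 ≤ D ∧ d x.1 x.2.2.2 ≤ D

/-- two-cycles are filled linearly -/
def Lin2 (d : P → P → ℕ) : Prop := ∀ D : ℕ, ∃ (D' : ℕ) (C : ℝ), ∀ c : P × P × P →₀ ℝ,
  (∀ x, c x ≠ 0 → Dm2 d D x) → b2 c = 0 →
    ∃ b : P × P × P × P →₀ ℝ, (∀ x, b x ≠ 0 → Dm3 d D' x) ∧ b3 b = c ∧ n1 b ≤ C * n1 c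

/-- balls of a relation -/
def Bl (A : P → P → Prop) : ℕ → P → Set P
  | 0, z => {z}
  | n + 1, z => Bl A n z ∪ {y | ∃ x ∈ Bl A n z, A x y}

end chains

/-- block A -/
def LinS : Prop := ∀ (P : Type) (d : P → P → ℕ) (δ : ℕ) (N : ℕ → ℕ), HG d δ N → Lin2 d

/-- block B -/
def IsoS : Prop := ∀ (J : Type) [Group J] (X : ℕ → Type) [∀ n, MulAction J (X n)]
  (R : N255.Gc.FR J X), R.PD → ∀ src tgt : X 1 → X 0, (∀ (g : J) e, src (g • e) = g • src e) →
  (∀ (g : J) e, tgt (g • e) = g • tgt e) →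
  (∀ e, R.d 0 (single e 1) = single (tgt e) 1 - single (src e) 1) →
  ∀ (P : Type) [MulAction J P] [Nonempty P] (d : P → P → ℕ), Fc J P →
  (∀ (g : J) x y, d (g • x) (g • y) = d x y) → (∀ x R, {y | d x y ≤ R}.Finite) → Lin2 d →
  Nonempty (Src J (X 0) (X 1) (X 2))

/-- block C -/
def BoS : Prop := ∀ δ : ℕ, ∃ c : ℕ, ∀ (P : Type) (d : P → P → ℕ) (N : ℕ → ℕ), HG d δ N →
  ∀ (J : Type) [Group J] [MulAction J P], (∀ (g : J) x y, d (g • x) (g • y) = d x y) →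
  ∀ (A : Finset J) (q : P) (l : ℕ), (∀ s ∈ A, s⁻¹ ∈ A) → (∀ s ∈ A, d q (s • q) ≤ l) →
  (∀ q', ∃ s ∈ A, l ≤ d q' (s • q')) →
  ∃ g, (g ∈ A ∨ ∃ s ∈ A, ∃ t ∈ A, g = s * t) ∧ ∀ n : ℕ, n * l ≤ d q (g ^ n • q) + n * c

/-- an invariant partition of unity with small oscillation -/
structure Pu (J : Type) {Z : Type} [Group J] [MulAction J Z] (A : Z → Z → Prop) (R : ℕ) (ε : ℝ)
    (ψ : Z → Z → ℝ) : Prop where
  nn : ∀ z y, 0 ≤ ψ z y
  sup : ∀ z y, ψ z y ≠ 0 → y ∈ Bl A R z ∧ z ∈ Bl A R y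
  one : ∀ y (s : Finset Z), (∀ z, ψ z y ≠ 0 → z ∈ s) → ∑ z ∈ s, ψ z y = 1
  smul : ∀ (g : J) z y, ψ (g • z) (g • y) = ψ z y
  osc : ∀ y y', A y y' → ∀ s : Finset Z, ∑ z ∈ s, |ψ z y - ψ z y'| ≤ 12 * ε

/-- block E -/
def PuS : Prop := ∀ (J Z : Type) [Group J] [MulAction J Z] (A : Z → Z → Prop),
  (∀ x y, A x y → A y x) → (∀ (g : J) x y, A x y → A (g • x) (g • y)) → ∀ (ε : ℝ) (R : ℕ), 0 < ε →
  2 ≤ (1 + ε) ^ R → (∀ z, (Bl A R z).Finite ∧ ((Bl A R z).ncard : ℝ) ≤ (1 + ε) ^ R) →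
  ∃ ψ, Pu J A R ε ψ

/-- all free actions of `J` on the walled graph have a point of bounded displacement -/
def Bd (J : Type) [Group J] {P H : Type} (d : P → P → ℕ) (mem : H → P → Prop) : Prop :=
  ∀ A : Finset J, ∃ L : ℕ, ∀ [MulAction J P] [MulAction J H], Act J d mem →
    ∃ q : P, ∀ s ∈ A, d q (s • q) ≤ L

/-- blocks D, F -/
def MainS : Prop := ∀ (J V E T : Type) [Group J] [MulAction J V] [MulAction J E] [MulAction J T],
  Src J V E T → ∀ (P H : Type) [Nonempty P] (d : P → P → ℕ) (δ : ℕ) (N : ℕ → ℕ)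
  (mem : H → P → Prop), HG d δ N → Wls d mem → Bd J d mem

/-- block G1 -/
def OutS : Prop := ∀ (G : Type) [Group G] (J : Subgroup G) [J.Normal], Group.FG J →
  (∀ x : G, (∀ h ∈ J, Commute x h) → x = 1) → ∀ (P H : Type) [MulAction G P] [MulAction G H]
  (d : P → P → ℕ) (mem : H → P → Prop), Act G d mem → Fc G P → (∀ x R, {y | d x y ≤ R}.Finite) →
  Bd J d mem → (MulAut.conj (G := G)).range.FiniteIndex

end Crest.Agent.N233.Fi

end
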