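import Crest.Agent.N233.Fi.Defs

/-!
# Row 233 (helper69): half spaces and geodesics in a hyperbolic graph
-/

set_option autoImplicit false

noncomputable section

namespace Crest.Agent.N233.Fi

open Hyp R179.HM998

variable {P H : Type} {d : P → P → ℕ} {δ : ℕ} {N : ℕ → ℕ} {mem : H → P → Prop}

/-- convex sets -/
def Cv (d : P → P → ℕ) (s : P → Prop) : Prop := ∀ x z y, d x z + d z y = d x y → s x → s y → s z

/-- `x` is within `r` of `s` -/
def Cl (d : P → P → ℕ) (s : P → Prop) (r : ℕ) (x : P) : Prop := ∃ w, s w ∧ d x w ≤ r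

/-- the half space does not run along the geodesics from `p` to `q` -/
def NR (d : P → P → ℕ) (D : ℕ) (s : P → Prop) (p q : P) : Prop :=
  ∀ a b, Cl d (fun x => ¬s x) a p → Cl d s b q → d p q ≤ a + b + D

/-- `y` branches off late -/
def Lt (d : P → P → ℕ) (ρ : ℕ) (s : P → Prop) (p q y : P) : Prop :=
  ∃ a, Cl d s a p ∧ 2 * (a + ρ) + d q y ≤ d p q + d p y

/-- regular crossings -/
structure Rg (d : P → P → ℕ) (D ρ : ℕ) (s : P → Prop) (p q : P) (Y : Set P) : Prop where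
  nr : NR d D s p q
  fq : ∀ y ∈ Y, ¬s y → Lt d ρ (fun x => ¬s x) p q y
  fp : ∀ y ∈ Y, s y → Lt d ρ s q p y

theorem Wls.cv (hw : Wls d mem) (h : H) : Cv d (mem h) := fun x z y e hx hy => by
  by_contra hz
  have h1 : {k | mem k x ∧ ¬mem k y} ⊆ ({k | mem k x ∧ ¬mem k z} \ {h}) ∪ {k | mem k z ∧ ¬mem k y} :=
    fun k hk => by
      by_cases c : mem k z
      · exact Or.inr ⟨c, hk.2⟩
      · exact Or.inl ⟨⟨hk.1, c⟩, fun e' => hk.2 (e' ▸ hy)⟩
  have h2 := (Set.ncard_le_ncard h1 (((hw.fin x z).sdiff).union (hw.fin z y))).trans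
    (Set.ncard_union_le _ _)
  have h3 := Set.ncard_sdiff_singleton_add_one (s := {k | mem k x ∧ ¬mem k z}) (a := h) ⟨hx, hz⟩
    (hw.fin x z)
  rw [hw.card, hw.card] at h2
  rw [hw.card] at h3
  omega

theorem Wls.cv' (hw : Wls d mem) (h : H) : Cv d fun x => ¬mem h x := fun x z y e hx hy hz => by
  have h1 : {k | mem k x ∧ ¬mem k y} ⊆ {k | mem k x ∧ ¬mem k z} ∪ ({k | mem k z ∧ ¬mem k y} \ {h}) :=
    fun k hk => by
      by_cases c : mem k z
      · exact Or.inr ⟨⟨c, hk.2⟩, fun e' => hx (e' ▸ hk.1)⟩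
      · exact Or.inl ⟨hk.1, c⟩
  have h2 := (Set.ncard_le_ncard h1 ((hw.fin x z).union (hw.fin z y).sdiff)).trans
    (Set.ncard_union_le _ _)
  have h3 := Set.ncard_sdiff_singleton_add_one (s := {k | mem k z ∧ ¬mem k y}) (a := h) ⟨hz, hy⟩
    (hw.fin z y)
  rw [hw.card, hw.card] at h2
  rw [hw.card] at h3
  omega

theorem cross {s : P → Prop} {τ : ℕ → P} {L : ℕ} (h0 : s (τ 0)) (h1 : ¬s (τ L)) :
    ∃ t < L, s (τ t) ∧ ¬s (τ (t + 1)) := by
  induction L with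
  | zero => exact (h1 h0).elim
  | succ L ih =>
    by_cases c : s (τ L)
    · exact ⟨L, L.lt_succ_self, c, h1⟩
    · obtain ⟨t, a, b⟩ := ih c
      exact ⟨t, by omega, b⟩

variable (hd : HG d δ N)
include hd

theorem HG.four (w x y z : P) :
    d x z + d w y ≤ d x y + d w z + δ ∨ d x z + d w y ≤ d y z + d w x + δ := by
  have := hd.fp.fp w x y z
  simp only [gp] at this
  rcases le_total ((d w x : ℝ) + d w y - d x y) (d w y + d w z - d y z) with c | c
  · rw [min_eq_left c] at this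
    left
    have : ((d x z + d w y : ℕ) : ℝ) ≤ (d x y + d w z + δ : ℕ) := by push_cast; linarith
    exact_mod_cast this
  · rw [min_eq_right c] at this
    right
    have : ((d x z + d w y : ℕ) : ℝ) ≤ (d y z + d w x + δ : ℕ) := by push_cast; linarith
    exact_mod_cast this

theorem HG.seg {τ : ℕ → P} {i j K : ℕ} {m : P} (hij : i ≤ j)
    (h : ∀ a b, i ≤ a → a ≤ b → b ≤ j → d (τ a) (τ b) = b - a)
    (hm : d (τ i) m + d m (τ j) ≤ (j - i) + K) :
    ∃ a, i ≤ a ∧ a ≤ j ∧ d m (τ a) ≤ K + δ + 1 := by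
  have t1 := hd.gm.tri (τ i) (τ j) m
  have t2 := hd.gm.tri m (τ i) (τ j)
  have c1 := hd.gm.comm (τ j) m
  have c2 := hd.gm.comm (τ i) m
  have e := h i j le_rfl hij le_rfl
  obtain ⟨a, ha⟩ : ∃ a, a = i + (d (τ i) m + (j - i) - d m (τ j)) / 2 := ⟨_, rfl⟩
  have a1 : i ≤ a := by omega
  have a2 : a ≤ j := by omega
  have e1 := h i a le_rfl a1 a2
  have e2 := h a j a1 a2 le_rfl
  have c3 := hd.gm.comm (τ j) (τ a)
  have := hd.four (τ i) m (τ j) (τ a)
  exact ⟨a, a1, a2, by omega⟩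

/-- points near a segment with ends in a convex set are near the set -/
theorem HG.cl_of_near {s : P → Prop} (hs : Cv d s) {x y m : P} {K : ℕ} (hx : s x) (hy : s y)
    (hm : d x m + d m y ≤ d x y + K) : Cl d s (K + δ + 1) m := by
  obtain ⟨τ, hτ⟩ := hd.gm.geo x y
  obtain ⟨a, -, a2, a3⟩ := hd.seg (τ := τ) (i := 0) (j := d x y) (K := K) (m := m) (Nat.zero_le _)
    (fun a b _ => hτ.dist a b) (by rw [hτ.zero, hτ.last]; exact hm)
  refine ⟨τ a, hs x _ y ?_ hx hy, a3⟩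
  have e1 := hτ.dist 0 a (Nat.zero_le _) a2
  have e2 := hτ.dist a _ a2 le_rfl
  rw [hτ.zero] at e1
  rw [hτ.last] at e2
  omega

theorem HG.cl_tri {s : P → Prop} {r : ℕ} {m : P} (h : Cl d s r m) (x : P) : Cl d s (d x m + r) x := by
  obtain ⟨w, h1, h2⟩ := h
  exact ⟨w, h1, (hd.gm.tri x m w).trans (by omega)⟩

/-- one step along a leaf -/
theorem HG.step {D ρ r K : ℕ} {s : P → Prop} {p q p' q' m : P} {Y : Set P} (h : Rg d D ρ s p q Y)
    (hp : p' ∈ Y) (hq : q' ∈ Y) (sp : s p') (sq : ¬s q') (m1 : Cl d s r m)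
    (m2 : Cl d (fun x => ¬s x) r m) (hm : d p m + d m q ≤ d p q + K)
    (hρ : r + D + 2 * K + δ < ρ) : d p' m + d m q' ≤ d p' q' + (K + 2 * δ) := by
  obtain ⟨a, a1, a2⟩ := h.fq q' hq sq
  obtain ⟨b, b1, b2⟩ := h.fp p' hp sp
  have n1 := h.nr _ _ a1 (hd.cl_tri m1 q)
  have n2 := h.nr _ _ (hd.cl_tri m2 p) b1
  have f1 := hd.four m p q' q
  have f2 := hd.four m p p' q'
  have := hd.gm.comm p m
  have := hd.gm.comm q m
  have := hd.gm.comm p' m
  have := hd.gm.comm q' q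
  have := hd.gm.comm q p
  have := hd.gm.tri p m q
  have := hd.gm.tri p m q'
  have := hd.gm.tri q m p'
  omega

/-- the crossing of a geodesic that passes near two deep points lies near the segment -/
theorem HG.mid {s : P → Prop} (h1 : Cv d s) (h2 : Cv d fun x => ¬s x) {p q y y' u w : P} {K : ℕ}
    (sp : s p) (sq : ¬s q) (hy : d p y + d y q = d p q) (sy : s y) (sy' : ¬s y') (e : d y y' ≤ 1)
    (hu : d p u + d u q ≤ d p q + K) (hw : d p w + d w q ≤ d p q + K)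
    (du : ¬Cl d (fun x => ¬s x) (K + 3 * δ + 3) u) (dw : ¬Cl d s (K + 3 * δ + 3) w) :
    d u y + d y w ≤ d u w + 2 * δ := by
  have a1 : d p u + 2 * δ < d y p + d y u := by
    by_contra c
    refine du ?_
    have := hd.cl_of_near h2 (m := u) (K := K + 2 * δ + 2) sy' sq (by
      have := hd.gm.tri y' y u
      have := hd.gm.tri y y' q
      have := hd.gm.comm y y'
      have := hd.gm.comm y p
      omega)
    rwa [show K + 2 * δ + 2 + δ + 1 = K + 3 * δ + 3 by ring] at this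
  have a2 : d w q + 2 * δ < d y w + d y q := by
    by_contra c
    refine dw ?_
    obtain ⟨v, v1, v2⟩ := hd.cl_of_near h1 (m := w) (K := K + 2 * δ) sp sy (by
      have := hd.gm.comm y w
      omega)
    exact ⟨v, v1, by omega⟩
  have f1 := hd.four y p u q
  have f2 := hd.four y u w q
  have := hd.gm.comm y p
  have := hd.gm.comm y u
  omega

theorem HG.geo_pq {τ : ℕ → P} {p q : P} (hτ : IsGeo d τ p q) {i : ℕ} (hi : i ≤ d p q) :
    d p (τ i) = i ∧ d (τ i) q = d p q - i ∧ d q (τ i) = d p q - i := by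
  have e1 := hτ.dist 0 i (Nat.zero_le _) hi
  have e2 := hτ.dist i _ hi le_rfl
  rw [hτ.zero] at e1
  rw [hτ.last] at e2
  exact ⟨e1, e2, by rw [hd.gm.comm, e2]⟩

variable (hw : Wls d mem)
include hw

theorem HG.bd_card (c : ℕ) (x : P) : {h | ∃ w, d x w ≤ c ∧ ¬(mem h x ↔ mem h w)}.Finite ∧
    {h | ∃ w, d x w ≤ c ∧ ¬(mem h x ↔ mem h w)}.ncard ≤ N c * (2 * c) := by
  classical
  let F : P → Finset H := fun w => (hw.fin x w).toFinset ∪ (hw.fin w x).toFinset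
  have h1 : {h | ∃ w, d x w ≤ c ∧ ¬(mem h x ↔ mem h w)} ⊆ ↑((hd.fin x c).toFinset.biUnion F) := by
    rintro h ⟨w, a, b⟩
    simp only [Finset.coe_biUnion, Set.mem_iUnion, Finset.mem_coe, Set.Finite.mem_toFinset, F,
      Finset.mem_union, Set.mem_ofPred_eq]
    exact ⟨w, a, by tauto⟩
  refine ⟨(Finset.finite_toSet _).subset h1, (Set.ncard_le_ncard h1).trans ?_⟩
  rw [Set.ncard_coe_finset]
  refine (Finset.card_biUnion_le_card_mul _ _ (2 * c) fun w hw' => ?_).trans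
    (Nat.mul_le_mul_right _ ?_)
  · have a : d x w ≤ c := (hd.fin x c).mem_toFinset.1 hw'
    refine (Finset.card_union_le _ _).trans ?_
    rw [← Set.ncard_eq_toFinset_card _ (hw.fin x w), ← Set.ncard_eq_toFinset_card _ (hw.fin w x),
      hw.card, hw.card, hd.gm.comm w x]
    omega
  · rw [← Set.ncard_eq_toFinset_card _ (hd.fin x c)]; exact hd.card x c

theorem HG.run_card (D : ℕ) (p q : P) :
    {h | mem h p ∧ ¬mem h q ∧ ¬NR d (D + 2 * δ) (mem h) p q}.ncard * D ≤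
      (d p q + 1) * (N (2 * δ + 1) * (2 * (2 * δ + 1))) := by
  classical
  obtain ⟨τ, hτ⟩ := hd.gm.geo p q
  have f : {h | mem h p ∧ ¬mem h q ∧ ¬NR d (D + 2 * δ) (mem h) p q}.Finite :=
    (hw.fin p q).subset fun h a => ⟨a.1, a.2.1⟩
  rw [Set.ncard_eq_toFinset_card _ f, ← Finset.card_range (d p q + 1)]
  refine Finset.card_mul_le_card_mul
    (fun h i => ∃ w, d (τ i) w ≤ 2 * δ + 1 ∧ ¬(mem h (τ i) ↔ mem h w)) (fun h hh => ?_) fun i _ => ?_
  · obtain ⟨sp, sq, c⟩ := f.mem_toFinset.1 hh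
    simp only [NR, not_forall, not_le] at c
    obtain ⟨a, b, ⟨w, w1, w2⟩, ⟨v, v1, v2⟩, c⟩ := c
    refine le_trans (by simp) (Finset.card_le_card (s := Finset.Ico (a + δ + 1)
      (a + δ + 1 + D)) fun i hi => ?_)
    have hi := Finset.mem_Ico.1 hi
    obtain ⟨e1, e2, e3⟩ := hd.geo_pq hτ (i := i) (by omega)
    refine (Finset.mem_bipartiteAbove _).2 ⟨Finset.mem_range.2 (by omega), ?_⟩
    have := hd.gm.comm (τ i) p
    by_cases c' : mem h (τ i)
    · obtain ⟨z, z1, z2⟩ := hd.cl_of_near (hw.cv' h) (m := τ i) (K := δ) w1 sq (by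
        have := hd.four (τ i) p w q
        have := hd.gm.tri p w (τ i)
        have := hd.gm.comm (τ i) w
        omega)
      exact ⟨z, by omega, fun e => z1 (e.1 c')⟩
    · obtain ⟨z, z1, z2⟩ := hd.cl_of_near (hw.cv h) (m := τ i) (K := δ) sp v1 (by
        have := hd.four (τ i) p v q
        have := hd.gm.tri q v (τ i)
        have := hd.gm.comm (τ i) v
        have := hd.gm.comm q v
        omega)
      exact ⟨z, by omega, fun e => c' (e.2 z1)⟩
  · have := hd.bd_card hw (2 * δ + 1) (τ i)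
    refine le_trans ?_ this.2
    rw [← Set.ncard_coe_finset]
    exact Set.ncard_le_ncard (fun h hh => ((Finset.mem_bipartiteBelow _).1 hh).2) this.1

theorem HG.win_card {τ : ℕ → P} {p q : P} (hτ : IsGeo d τ p q) {A : Set H} (lo W : ℕ)
    (hA : ∀ h ∈ A, ∃ t < d p q, mem h (τ t) ∧ ¬mem h (τ (t + 1)) ∧ lo ≤ t ∧ t < lo + W) :
    A.ncard ≤ W := by
  have _ := hd
  choose! t ht using hA
  have := Set.ncard_le_ncard_of_injOn (s := A) (t := ↑(Finset.Ico lo (lo + W))) t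
    (fun h hh => by simpa using (ht h hh).2.2.2) (fun h hh k hk e => ?_) (Finset.finite_toSet _)
  · simpa using this
  have c := hw.card (τ (t h)) (τ (t h + 1))
  rw [hτ.dist _ (t h + 1) (by omega) (ht h hh).1, Nat.add_sub_cancel_left, Set.ncard_eq_one] at c
  obtain ⟨a, c⟩ := c
  have c1 : h ∈ ({a} : Set H) := c ▸ ⟨(ht h hh).2.1, (ht h hh).2.2.1⟩
  have c2 : k ∈ ({a} : Set H) := c ▸ ⟨e ▸ (ht k hk).2.1, e ▸ (ht k hk).2.2.1⟩
  exact c1.trans c2.symm

theorem HG.lt_card (D ρ : ℕ) (p q y : P) :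
    {h | mem h p ∧ ¬mem h q ∧ NR d D (mem h) p q ∧ ¬((¬mem h y → Lt d ρ (fun x => ¬mem h x) p q y) ∧
      (mem h y → Lt d ρ (mem h) q p y))}.ncard ≤ 2 * (ρ + D + δ + 4) := by
  classical
  obtain ⟨τ, hτ⟩ := hd.gm.geo p q
  have t1 := hd.gm.tri q p y
  have t2 := hd.gm.tri p q y
  have t3 := hd.gm.tri p y q
  have c1 := hd.gm.comm q p
  have c2 := hd.gm.comm q y
  have c3 := hd.gm.comm p y
  have cr : ∀ h, mem h p → ¬mem h q → ∃ t < d p q, mem h (τ t) ∧ ¬mem h (τ (t + 1)) := fun h a b =>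
    cross (s := mem h) (by rwa [hτ.zero]) (by rwa [hτ.last])
  have h1 : {h | mem h p ∧ ¬mem h q ∧ NR d D (mem h) p q ∧ ¬mem h y ∧
      ¬Lt d ρ (fun x => ¬mem h x) p q y}.ncard ≤ ρ + D + δ + 4 := by
    refine hd.win_card hw hτ ((d p q + d p y - d q y) / 2 - (ρ + 1)) _ fun h ⟨a, b, c, e, f⟩ => ?_
    obtain ⟨t, t1, t2, t3⟩ := cr h a b
    obtain ⟨e1, e2, e3⟩ := hd.geo_pq hτ (i := t) (by omega)
    obtain ⟨e4, -, -⟩ := hd.geo_pq hτ (i := t + 1) (by omega)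
    refine ⟨t, t1, t2, t3, ?_, ?_⟩
    · by_contra g
      exact f ⟨t + 1, ⟨_, t3, e4.le⟩, by omega⟩
    · obtain ⟨σ, hσ⟩ := hd.gm.geo q y
      obtain ⟨i, hi⟩ : ∃ i, i = (d p q + d q y - d p y) / 2 := ⟨_, rfl⟩
      obtain ⟨g1, g2, g3⟩ := hd.geo_pq hσ (i := i) (by omega)
      have := c _ _ ⟨σ i, hw.cv' h q _ y (by omega) b e, le_rfl⟩ ⟨_, t2, e3.le⟩
      have := hd.four q p y (σ i)
      omega
  have h2 : {h | mem h p ∧ ¬mem h q ∧ NR d D (mem h) p q ∧ mem h y ∧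
      ¬Lt d ρ (mem h) q p y}.ncard ≤ ρ + D + δ + 4 := by
    refine hd.win_card hw hτ ((d p q + d p y - d q y) / 2 - (D + δ + 2)) _
      fun h ⟨a, b, c, e, f⟩ => ?_
    obtain ⟨t, t1, t2, t3⟩ := cr h a b
    obtain ⟨e1, e2, e3⟩ := hd.geo_pq hτ (i := t) (by omega)
    obtain ⟨e4, -, -⟩ := hd.geo_pq hτ (i := t + 1) (by omega)
    refine ⟨t, t1, t2, t3, ?_, ?_⟩
    · obtain ⟨σ, hσ⟩ := hd.gm.geo p y
      obtain ⟨i, hi⟩ : ∃ i, i = (d p q + d p y - d q y) / 2 := ⟨_, rfl⟩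
      obtain ⟨g1, g2, g3⟩ := hd.geo_pq hσ (i := i) (by omega)
      have := c _ _ ⟨_, t3, e4.le⟩ ⟨σ i, hw.cv h p _ y (by omega) a e, le_rfl⟩
      have := hd.four p q y (σ i)
      omega
    · by_contra g
      exact f ⟨d p q - t, ⟨_, t2, e3.le⟩, by omega⟩
  have f : ∀ r : H → Prop, {h | mem h p ∧ ¬mem h q ∧ r h}.Finite := fun r =>
    (hw.fin p q).subset fun h a => ⟨a.1, a.2.1⟩
  refine le_trans (Set.ncard_le_ncard ?_ ((f _).union (f _))) ((Set.ncard_union_le _ _).trans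
    ((add_le_add h1 h2).trans (by omega)))
  rintro h ⟨a, b, c, e⟩
  by_cases g : mem h y
  · exact Or.inr ⟨a, b, c, g, fun k => e ⟨fun n => (n g).elim, fun _ => k⟩⟩
  · exact Or.inl ⟨a, b, c, g, fun k => e ⟨fun _ => k, fun n => (g n).elim⟩⟩

/-- few crossings are singular -/
theorem HG.sing_card (D ρ : ℕ) (p q : P) (Y : Finset P) :
    {h | mem h p ∧ ¬mem h q ∧ ¬Rg d (D + 2 * δ) ρ (mem h) p q Y}.ncard * D ≤
      (d p q + 1) * (N (2 * δ + 1) * (2 * (2 * δ + 1))) +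
        Y.card * (2 * (ρ + (D + 2 * δ) + δ + 4)) * D := by
  classical
  have f : ∀ r : H → Prop, {h | mem h p ∧ ¬mem h q ∧ r h}.Finite := fun r =>
    (hw.fin p q).subset fun h a => ⟨a.1, a.2.1⟩
  let F : P → Finset H := fun y => (f fun h => NR d (D + 2 * δ) (mem h) p q ∧
    ¬((¬mem h y → Lt d ρ (fun x => ¬mem h x) p q y) ∧ (mem h y → Lt d ρ (mem h) q p y))).toFinset
  have h1 : (Y.biUnion F).card ≤ Y.card * (2 * (ρ + (D + 2 * δ) + δ + 4)) :=
    Finset.card_biUnion_le_card_mul _ _ _ fun y _ => by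
      rw [← Set.ncard_eq_toFinset_card _ (f _)]; exact hd.lt_card hw _ _ p q y
  have h2 := Set.ncard_le_ncard (s := {h | mem h p ∧ ¬mem h q ∧
      ¬Rg d (D + 2 * δ) ρ (mem h) p q Y}) (t := {h | mem h p ∧ ¬mem h q ∧
      ¬NR d (D + 2 * δ) (mem h) p q} ∪ ↑(Y.biUnion F)) ?_ ((f _).union (Finset.finite_toSet _))
  · have h3 := h2.trans (Set.ncard_union_le _ _)
    rw [Set.ncard_coe_finset] at h3
    have h4 := hd.run_card hw D p q
    refine (Nat.mul_le_mul_right D h3).trans ?_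
    rw [add_mul]
    exact add_le_add h4 (Nat.mul_le_mul_right D h1)
  rintro h ⟨a, b, c⟩
  by_cases g : NR d (D + 2 * δ) (mem h) p q
  · right
    by_contra k
    simp only [Finset.coe_biUnion, Set.mem_iUnion, Finset.mem_coe, Set.Finite.mem_toFinset, F,
      Set.mem_ofPred_eq, not_exists] at k
    have k' : ∀ y ∈ Y, (¬mem h y → Lt d ρ (fun x => ¬mem h x) p q y) ∧
        (mem h y → Lt d ρ (mem h) q p y) := fun y hy => by_contra fun n => k y hy ⟨a, b, g, n⟩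
    exact c ⟨g, fun y hy => (k' y hy).1, fun y hy => (k' y hy).2⟩
  · exact Or.inl ⟨a, b, g⟩

end Crest.Agent.N233.Fi

end
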