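import Crest.Agent.N233.Fi.IsoL

/-!
# Row 233 (helper82): `IsoS`, the linear isoperimetric inequality for compactly supported cochains
-/

set_option autoImplicit false
open Finsupp

noncomputable section

namespace Crest.Agent.N233.Fi.Io

section cone
variable {P : Type}

/-- the augmentation -/
def b0 : (P →₀ ℝ) →ₗ[ℝ] (Unit →₀ ℝ) := linearCombination ℝ fun _ => single () 1

theorem lext {A : Type} {M : Type} [AddCommGroup M] [Module ℝ M] {L L' : (A →₀ ℝ) →ₗ[ℝ] M}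
    (h : ∀ a, L (single a 1) = L' (single a 1)) (c : A →₀ ℝ) : L c = L' c :=
  LinearMap.congr_fun (Finsupp.lhom_ext' fun a => LinearMap.ext_ring (h a)) c

theorem b0_b1 (c : P × P →₀ ℝ) : b0 (b1 c) = 0 :=
  lext (L := b0 ∘ₗ b1) (L' := 0) (fun a => by simp [b0, b1]) c

theorem b1_b2 (c : P × P × P →₀ ℝ) : b1 (b2 c) = 0 :=
  lext (L := b1 ∘ₗ b2) (L' := 0) (fun a => by simp [b1, b2]) c

theorem b2_b3 (c : P × P × P × P →₀ ℝ) : b2 (b3 c) = 0 :=
  lext (L := b2 ∘ₗ b3) (L' := 0) (fun a => by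
    simp only [b2, b3, LinearMap.comp_apply, linearCombination_single, one_smul, map_add, map_sub,
      LinearMap.zero_apply]
    abel) c

theorem ex0 (p : P) (z : Unit →₀ ℝ) : ∃ y : P →₀ ℝ, b0 y = z :=
  ⟨single p (z ()), by ext; simp [b0]⟩

theorem ex1 (p : P) (z : P →₀ ℝ) (hz : b0 z = 0) : ∃ y, b1 y = z := by
  have h := lext (L := b1 ∘ₗ lmapDomain ℝ ℝ fun x => (p, x))
    (L' := LinearMap.id - lmapDomain ℝ ℝ (fun _ => p) ∘ₗ b0) (fun a => by simp [b0, b1]) z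
  exact ⟨_, by simpa [hz] using h⟩

theorem ex2 (p : P) (z : P × P →₀ ℝ) (hz : b1 z = 0) : ∃ y, b2 y = z := by
  have h := lext (L := b2 ∘ₗ lmapDomain ℝ ℝ fun x => (p, x))
    (L' := LinearMap.id - lmapDomain ℝ ℝ (fun x => (p, x)) ∘ₗ b1) (fun a => by
      simp only [b1, b2, LinearMap.comp_apply, lmapDomain_apply, mapDomain_single,
        linearCombination_single, one_smul, LinearMap.sub_apply, LinearMap.id_apply, map_sub]
      abel) z
  exact ⟨_, by simpa [hz] using h⟩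

variable {J : Type} [Group J] [MulAction J P]

theorem eqv_b0 : Eqv J (b0 : (P →₀ ℝ) →ₗ[ℝ] _) := eqv_of fun g x => by simp [b0, tr_single]

theorem eqv_b1 : Eqv J (b1 : (P × P →₀ ℝ) →ₗ[ℝ] _) := eqv_of fun g x => by
  simp [b1, tr_single]

theorem eqv_b2 : Eqv J (b2 : (P × P × P →₀ ℝ) →ₗ[ℝ] _) := eqv_of fun g x => by
  simp [b2, tr_single]

theorem eqv_b3 : Eqv J (b3 : (P × P × P × P →₀ ℝ) →ₗ[ℝ] _) := eqv_of fun g x => by
  simp [b3, tr_single]

theorem free_prod {Q : Type} [MulAction J Q] (hf : ∀ (g : J) (x : P), g • x = x → g = 1) (g : J)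
    (x : P × Q) (h : g • x = x) : g = 1 := hf g x.1 (congrArg Prod.fst h)

theorem fin_dm3 {d : P → P → ℕ} (hP : Fc J P) (hd : ∀ (g : J) x y, d (g • x) (g • y) = d x y)
    (hb : ∀ x R, {y | d x y ≤ R}.Finite) (D : ℕ) :
    ∃ s : Finset (P × P × P × P), ∀ x, Dm3 d D x → ∃ g : J, g • x ∈ s := by
  obtain ⟨s, hs⟩ := hP.fin
  have hf : (⋃ p ∈ (s : Set P), ({p} ×ˢ {y | d p y ≤ D} ×ˢ {y | d p y ≤ D} ×ˢ {y | d p y ≤ D} :
      Set (P × P × P × P))).Finite :=
    s.finite_toSet.biUnion fun p _ =>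
      (Set.finite_singleton p).prod ((hb p D).prod ((hb p D).prod (hb p D)))
  refine ⟨hf.toFinset, fun x hx => ?_⟩
  obtain ⟨g, hg⟩ := hs x.1
  refine ⟨g, hf.mem_toFinset.2 (Set.mem_biUnion hg ⟨rfl, ?_, ?_, ?_⟩)⟩
  · exact (hd g _ _).trans_le hx.1
  · exact (hd g _ _).trans_le hx.2.1
  · exact (hd g _ _).trans_le hx.2.2

end cone

section res
variable {J : Type} [Group J] {X : ℕ → Type} [∀ n, MulAction J (X n)] (R : N255.Gc.FR J X)

theorem cst_map {A : Type} [MulAction J A] (g : J) (c : A →₀ ℤ) :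
    cst (mapDomain (g • ·) c) = tr g (cst c) := by
  induction c using Finsupp.induction_linear with
  | zero => simp
  | add a b ha hb => simp only [mapDomain_add, map_add, ha, hb]
  | single a n => rw [mapDomain_single, cst_single, cst_single, tr_single]

theorem eqv_de (n : ℕ) : Eqv J (rx (R.de n)) := eqv_of fun g x => by
  rw [rx_single, rx_single, one_smul, one_smul, R.de_smul, cst_map]

include R in
theorem fc (n : ℕ) : Fc J (X n) := by
  obtain ⟨s, hs, h⟩ := R.fin n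
  exact ⟨R.free n, hs.toFinset, fun x => by simpa using h x⟩

theorem de_apply (n : ℕ) (c : X n →₀ ℝ) (y : X (n + 1)) :
    rx (R.de n) c y = (cst (R.d n (single y 1))).sum fun x a => a * c x := by
  induction c using Finsupp.induction_linear with
  | zero => simp
  | add a b ha hb => simp only [map_add, Finsupp.add_apply, ha, hb, mul_add, Finsupp.sum_add]
  | single x r =>
    classical
    rw [rx_single, Finsupp.smul_apply, cst_apply, R.de_single, ← cst_apply]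
    simp only [single_apply, smul_eq_mul, mul_ite, mul_zero]
    rw [Finsupp.sum_ite_eq]
    split_ifs with h
    · exact mul_comm _ _
    · rw [notMem_support_iff.1 h, mul_zero]

/-- linear filling of the real two-cocycles -/
theorem fill (h : R.PD) {P : Type} [MulAction J P] (p : P) {d : P → P → ℕ} (hP : Fc J P)
    (hd : ∀ (g : J) x y, d (g • x) (g • y) = d x y) (hb : ∀ x R, {y | d x y ≤ R}.Finite)
    (hL : Lin2 d) : ∃ C : ℝ, 0 ≤ C ∧ ∀ c : X 2 →₀ ℝ, rx (R.de 2) c = 0 →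
      ∃ β, rx (R.de 1) β = c ∧ n1 β ≤ C * n1 c := by
  obtain ⟨s, hs, hs', hsg⟩ := h.s
  let sZ : (X 4 →₀ ℤ) →ₗ[ℤ] (Unit →₀ ℤ) := (lsingle ()) ∘ₗ s.toIntLinearMap
  have e3 : Function.Exact (rx (R.de 3)) (rx sZ) := rx_exact fun y => by
    rw [← hs y]
    simp [sZ]
  have e4 : Function.Exact (rx sZ) (rx (0 : (Unit →₀ ℤ) →ₗ[ℤ] (Unit →₀ ℤ))) := rx_exact fun y => by
    obtain ⟨x, hx⟩ := hs' (y ())
    refine ⟨fun _ => ⟨x, ?_⟩, fun _ => rfl⟩
    ext
    simp [sZ, hx]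
  have e2 : Function.Exact (rx (R.de 2)) (rx (R.de 3)) := rx_exact (h.h 2 (by decide))
  have e1 : Function.Exact (rx (R.de 1)) (rx (R.de 2)) := rx_exact (h.h 1 (by decide))
  have qs : Eqv J (rx sZ) := eqv_of fun g x => by
    simp [rx_single, sZ, hsg, cst_single, tr_single]
  have z0 : ∀ z, rx (0 : (Unit →₀ ℤ) →ₗ[ℤ] (Unit →₀ ℤ)) z = 0 := fun z =>
    lext (L' := 0) (fun a => by simp [rx_single]) z
  obtain ⟨u0, q0, hu0⟩ := lift (R.free 4) (eqv_b0 (P := P)) (D' := (0 : _ →ₗ[ℝ] (Unit →₀ ℝ)))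
    (fun z _ => ex0 p z) qs (fun _ => rfl)
  obtain ⟨u1, q1, hu1⟩ := lift (R.free 3) eqv_b1 (ex1 p) (q0.comp (eqv_de R 3)) fun c => by
    rw [LinearMap.comp_apply, hu0, e3.apply_apply_eq_zero]
  obtain ⟨u2, q2, hu2⟩ := lift (R.free 2) eqv_b2 (ex2 p) (q1.comp (eqv_de R 2)) fun c => by
    rw [LinearMap.comp_apply, hu1, LinearMap.comp_apply, e2.apply_apply_eq_zero, map_zero]
  obtain ⟨v0, r0, hv0⟩ := lift hP.free qs (fun z hz => (e4 z).1 hz) (eqv_b0 (P := P))
    fun _ => z0 _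
  obtain ⟨v1, r1, hv1⟩ := lift (free_prod hP.free) (eqv_de R 3) (fun z hz => (e3 z).1 hz)
    (r0.comp eqv_b1) fun c => by rw [LinearMap.comp_apply, hv0, b0_b1]
  obtain ⟨v2, r2, hv2⟩ := lift (free_prod hP.free) (eqv_de R 2) (fun z hz => (e2 z).1 hz)
    (r1.comp eqv_b2) fun c => by
      rw [LinearMap.comp_apply, hv1, LinearMap.comp_apply, b1_b2, map_zero]
  obtain ⟨v3, r3, hv3⟩ := lift (free_prod hP.free) (eqv_de R 1) (fun z hz => (e1 z).1 hz)
    (r2.comp eqv_b3) fun c => by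
      rw [LinearMap.comp_apply, hv2, LinearMap.comp_apply, b2_b3, map_zero]
  simp only [LinearMap.comp_apply] at hu1 hu2 hv1 hv2 hv3
  obtain ⟨k0, t0, hk0⟩ := lift (R.free 4) (eqv_de R 3) (fun z hz => (e3 z).1 hz)
    ((r0.comp q0).sub eqv_id) fun c => by
      rw [LinearMap.sub_apply, LinearMap.comp_apply, map_sub, hv0, hu0, LinearMap.id_apply,
        sub_self]
  obtain ⟨k1, t1, hk1⟩ := lift (R.free 3) (eqv_de R 2) (fun z hz => (e2 z).1 hz)
    (((r1.comp q1).sub eqv_id).sub (t0.comp (eqv_de R 3))) fun c => by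
      simp only [LinearMap.sub_apply, LinearMap.comp_apply, map_sub, LinearMap.id_apply, hv1, hu1,
        hk0, sub_self]
  obtain ⟨k2, t2, hk2⟩ := lift (R.free 2) (eqv_de R 1) (fun z hz => (e1 z).1 hz)
    (((r2.comp q2).sub eqv_id).sub (t1.comp (eqv_de R 2))) fun c => by
      simp only [LinearMap.sub_apply, LinearMap.comp_apply, map_sub, LinearMap.id_apply, hv2, hu2,
        hk1, e2.apply_apply_eq_zero, map_zero, sub_zero, sub_self]
  obtain ⟨s2, hs2⟩ := (fc R 2).fin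
  obtain ⟨D, hD⟩ := q2.supp s2 hs2 (fun x => max (d x.1 x.2.1) (d x.1 x.2.2)) fun g x => by
    simp [hd]
  obtain ⟨D', C, hC⟩ := hL D
  obtain ⟨s3, hs3⟩ := fin_dm3 hP hd hb D'
  obtain ⟨A, hA, hA'⟩ := q2.bound s2
  obtain ⟨B, hB, hB'⟩ := r3.bound s3
  obtain ⟨K, hK, hK'⟩ := t2.bound s2
  refine ⟨B * (|C| * A) + K, by positivity, fun c hc => ?_⟩
  obtain ⟨b, hb1, hb2, hb3⟩ := hC (u2 c) (fun x hx => max_le_iff.1 (hD c x hx))
    (by rw [hu2, hc, map_zero])
  refine ⟨v3 b - k2 c, ?_, (n1_sub_le _ _).trans ?_⟩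
  · rw [map_sub, hv3, hb2, hk2]
    simp [hc]
  · have h1 := hA' c fun x _ => hs2 x
    have h2 := hB' b fun x hx => hs3 x (hb1 x hx)
    have h3 := hK' c fun x _ => hs2 x
    have h4 : n1 b ≤ |C| * (A * n1 c) :=
      hb3.trans ((mul_le_mul_of_nonneg_right (le_abs_self C) (n1_nonneg _)).trans
        (mul_le_mul_of_nonneg_left h1 (abs_nonneg C)))
    have h5 := mul_le_mul_of_nonneg_left h4 hB
    nlinarith

end res

theorem sum_cst {A B : Type} {f : (A →₀ ℤ) →ₗ[ℤ] (B →₀ ℤ)} {src tgt : A → B}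
    (hf : ∀ e, f (single e 1) = single (tgt e) 1 - single (src e) 1) (F : B → ℝ) (c : A →₀ ℤ) :
    ((cst c).sum fun e a => a * (F (tgt e) - F (src e))) = linearCombination ℝ F (cst (f c)) := by
  rw [← rx_cst]
  exact lext (L := linearCombination ℝ fun e => F (tgt e) - F (src e))
    (L' := linearCombination ℝ F ∘ₗ rx f) (fun a => by simp [rx_single, hf, cst_single]) _

end Crest.Agent.N233.Fi.Io

namespace Crest.Agent.N233.Fi

open Io in
theorem isoS : IsoS := by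
  intro J _ X _ R h src tgt hs ht hd0 P _ hne d hP hd hb hL
  obtain ⟨p⟩ := hne
  obtain ⟨C, hC, hf⟩ := fill R h p hP hd hb hL
  have e0 : Function.Exact (rx (R.de 0)) (rx (R.de 1)) := rx_exact (h.h 0 (by decide))
  refine ⟨⟨src, tgt, fun σ => cst (R.d 1 (single σ 1)), hs, ht, fun g σ e => ?_, fc R 0, fc R 1,
    fc R 2, R.ne, fun σ F => ?_, fun x y => ?_, C, hC, fun Ω => ?_⟩⟩
  · rw [cst_apply, cst_apply, R.d_smul]
  · rw [sum_cst hd0, (R.exact 0).apply_apply_eq_zero, map_zero, map_zero]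
  · obtain ⟨c, hc⟩ := (R.exact0 (single y 1 - single x 1)).1 (by simp)
    exact ⟨cst c, fun F => by rw [sum_cst hd0, hc]; simp [cst_single]⟩
  · obtain ⟨β, h1, h2⟩ := hf (rx (R.de 1) Ω)
      ((rx_exact (h.h 1 (by decide))).apply_apply_eq_zero Ω)
    obtain ⟨W, hW⟩ := (e0 (Ω - β)).1 (by rw [map_sub, h1, sub_self])
    refine ⟨W, (rx (R.de 1) Ω).support, fun s => ?_⟩
    have h3 : ∀ e, Ω e - (W (tgt e) - W (src e)) = β e := fun e => by
      have h4 : rx (R.de 0) W e = W (tgt e) - W (src e) := by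
        rw [de_apply, hd0]
        change linearCombination ℝ W _ = _
        simp [cst_single]
      rw [← h4, hW, Finsupp.sub_apply, sub_sub_cancel]
    simp only [h3, ← de_apply]
    exact (sum_le_n1 β s).trans h2

end Crest.Agent.N233.Fi

end
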