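import Crest.Agent.N233.Fi.Defs

/-!
# Row 233 (helper79): bounded displacement implies that `Out G` is finite.
-/

set_option autoImplicit false

namespace Crest.Agent.N233.Fi

/-- an automorphism is determined by its values on a normal subgroup with trivial centraliser -/
theorem aut_ext_of_normal {G : Type} [Group G] (J : Subgroup G) [hJ : J.Normal]
    (hc : ∀ x : G, (∀ h ∈ J, Commute x h) → x = 1) {α β : MulAut G} (h : ∀ x ∈ J, α x = β x) :
    α = β := by
  ext g
  have key : g⁻¹ * β.symm (α g) = 1 := hc _ fun x hx => by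
    have h1 := h _ (hJ.conj_mem x hx g)
    have h2 : β.symm (α (g * x * g⁻¹)) = g * x * g⁻¹ := by rw [h1, β.symm_apply_apply]
    have h3 : β.symm (α x) = x := by rw [h x hx, β.symm_apply_apply]
    rw [map_mul, map_mul, map_mul, map_mul, map_inv, map_inv, h3] at h2
    set y := β.symm (α g)
    have h4 : y * x = g * x * g⁻¹ * y := by rw [← h2]; group
    change g⁻¹ * y * x = x * (g⁻¹ * y)
    rw [mul_assoc, h4]; group
  have : β.symm (α g) = g := by rw [inv_mul_eq_one] at key; exact key.symm
  rw [← β.apply_symm_apply (α g), this]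

theorem outS : OutS := by
  classical
  intro G _ J hJ hfg hc P H _ _ d mem ha hf hb hB
  obtain ⟨A, hA⟩ := Group.fg_def.1 hfg
  obtain ⟨L, hL⟩ := hB A
  obtain ⟨s0, hs0⟩ := hf.fin
  have hfin : ∀ q : P, {g : G | d q (g • q) ≤ L}.Finite := fun q => by
    refine Set.Finite.of_finite_image (f := fun g : G => g • q) ((hb q L).subset ?_) ?_
    · rintro _ ⟨g, hg, rfl⟩; exact hg
    · intro g _ g' _ e
      have : (g'⁻¹ * g) • q = q := by
        rw [mul_smul, show g • q = g' • q from e, inv_smul_smul]
      have h1 := ha.free _ _ this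
      rw [inv_mul_eq_one] at h1
      exact h1.symm
  let U : Set G := ⋃ q ∈ s0, {g : G | d q (g • q) ≤ L}
  have hU : U.Finite := s0.finite_toSet.biUnion fun q _ => hfin q
  let M : Set (MulAut G) := {α | ∀ s : A, α (s.1 : G) ∈ U}
  have hM : M.Finite := by
    refine Set.Finite.of_finite_image (f := fun (α : MulAut G) (s : A) => α (s.1 : G))
      ((Set.Finite.pi' fun _ : A => hU).subset ?_) ?_
    · rintro _ ⟨α, h, rfl⟩; exact h
    · intro α _ β _ e
      refine aut_ext_of_normal J hc fun x hx => ?_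
      have : (α.toMonoidHom.comp J.subtype) = β.toMonoidHom.comp J.subtype :=
        MonoidHom.eq_of_eqOn_dense hA fun s hs => congrFun e ⟨s, hs⟩
      exact DFunLike.congr_fun this ⟨x, hx⟩
  have hcov : ∀ α : MulAut G, ∃ g : G, MulAut.conj g * α ∈ M := fun α => by
    let φ : J →* G := α.toMonoidHom.comp J.subtype
    obtain ⟨q, hq⟩ := @hL (MulAction.compHom P φ) (MulAction.compHom H φ)
      (@Act.mk J P H _ (MulAction.compHom P φ) (MulAction.compHom H φ) d mem
        (fun g x y => ha.iso (φ g) x y) (fun g h x => ha.mem (φ g) h x) fun g x e => by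
          have h1 : α (g : G) = 1 := ha.free (φ g) x e
          exact Subtype.ext (by simpa using h1))
    obtain ⟨g, hg⟩ := hs0 q
    refine ⟨g, fun s => Set.mem_biUnion (x := g • q) hg ?_⟩
    have h1 : d q (α (s.1 : G) • q) ≤ L := hq s.1 s.2
    change d (g • q) ((g * α (s.1 : G) * g⁻¹) • g • q) ≤ L
    rw [mul_smul, inv_smul_smul, mul_smul, ha.iso]
    exact h1
  have : Finite (MulAut G ⧸ (MulAut.conj (G := G)).range) := by
    have := hM.to_subtype
    refine Finite.of_surjective (fun a : M => (QuotientGroup.mk a.1 : MulAut G ⧸ _)) fun x => ?_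
    obtain ⟨α, rfl⟩ := QuotientGroup.mk_surjective x
    obtain ⟨g, hg⟩ := hcov α
    refine ⟨⟨_, hg⟩, QuotientGroup.eq.2 ⟨α⁻¹ g⁻¹, ?_⟩⟩
    ext y
    simp
  exact Subgroup.finiteIndex_of_finite_quotient

end Crest.Agent.N233.Fi
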