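import Crest.Agent.N233.Fi.Lin
import Crest.Agent.N233.Fi.Iso
import Crest.Agent.N233.Fi.Out
import Crest.Agent.N233.Rg.Inn
import Crest.Agent.N233.Hi.Hy
import Crest.Agent.N255.Ce.Fr
import Crest.Agent.N233.Lo.Mir
import Crest.Agent.N255.Pt.Mir

/-!
# Row 233 (helper53): `Out G` is finite, the instance of the blocks on cube complexes
-/

set_option autoImplicit false
open Finsupp

noncomputable section

namespace Crest.Agent.N233.Fi.In

open Hyp R179.HM998 N255.Ra N255.Gc
open scoped Pointwise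

/-! ### resolutions -/

section res
variable {G J : Type} [Group G] [Group J] {X : ℕ → Type} [∀ n, MulAction G (X n)]

/-- restriction to a subgroup of finite index -/
def res (R : FR G X) (j : J →* G) (hj : Function.Injective j) [j.range.FiniteIndex] :
    @FR J _ X fun n => MulAction.compHom (X n) j :=
  letI := fun n => MulAction.compHom (X n) j
  { d := R.d
    free := fun n g x h => hj ((R.free n (j g) x h).trans (map_one j).symm)
    fin := fun n => by
      obtain ⟨C, hC, h⟩ := Hi.cof_sub (R.fin n) j.range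
      refine ⟨C, hC, fun x => ?_⟩
      obtain ⟨⟨_, g, rfl⟩, hg⟩ := h x
      exact ⟨g, hg⟩
    eqv := fun n g y => R.eqv n (j g) y
    exact := R.exact
    exact0 := R.exact0
    ne := R.ne }

theorem res_pd {R : FR G X} (h : R.PD) (j : J →* G) (hj : Function.Injective j)
    [j.range.FiniteIndex] : @FR.PD J _ X (fun n => MulAction.compHom (X n) j) (res R j hj) := by
  letI := fun n => MulAction.compHom (X n) j
  obtain ⟨s, h1, h2, h3⟩ := h.s
  exact ⟨h.h0, h.h, h.h4, s, h1, h2, fun g x => h3 (j g) x⟩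

theorem exists_ends (R : FR G X)
    (h : ∀ e, ∃ x y, R.d 0 (single e 1) = single y 1 - single x 1) :
    ∃ src tgt : X 1 → X 0, (∀ (g : G) e, src (g • e) = g • src e) ∧
      (∀ (g : G) e, tgt (g • e) = g • tgt e) ∧
      ∀ e, R.d 0 (single e 1) = single (tgt e) 1 - single (src e) 1 := by
  choose a b hab using h
  let r : X 1 → X 1 := fun e => (Quotient.mk (MulAction.orbitRel G (X 1)) e).out
  have h1 : ∀ e, ∃ g : G, g • r e = e := fun e =>
    (MulAction.orbitRel G (X 1)).symm (Quotient.mk_out (s := MulAction.orbitRel G (X 1)) e)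
  choose c hc using h1
  have h2 : ∀ (g : G) e, r (g • e) = r e := fun g e =>
    congrArg Quotient.out (Quotient.sound (s := MulAction.orbitRel G (X 1)) ⟨g, rfl⟩)
  have h3 : ∀ (g : G) e, c (g • e) = g * c e := fun g e => by
    have := hc (g • e)
    rw [h2] at this
    have e1 := R.free 1 ((g * c e)⁻¹ * c (g • e)) (r e) (by
      rw [mul_smul, this, inv_smul_eq_iff, mul_smul, hc])
    exact (inv_mul_eq_one.1 e1).symm
  refine ⟨fun e => c e • a (r e), fun e => c e • b (r e), fun g e => by simp only [h2, h3, mul_smul],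
    fun g e => by simp only [h2, h3, mul_smul], fun e => ?_⟩
  conv_lhs => rw [← hc e, R.eqv, hab, mapDomain_sub, mapDomain_single, mapDomain_single]

end res

section cell
open N255.Ce N255.Ce.Mir
variable {S K F Nd Ed : Type} [DecidableEq S] [Group F] [MulAction F Nd] [MulAction F Ed]
  (M : N255.Ce.Mir S K F Nd Ed) [LinearOrder K] [Finite K]

theorem fr_edge (e : M.ug.X 1) : ∃ x y, M.fr.d 0 (single e 1) = single y 1 - single x 1 := by
  have key : ∀ x y : M.ug.X 0, Cell.bd e.1 = single y.1 1 - single x.1 1 →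
      M.fr.d 0 (single e 1) = single y 1 - single x 1 := fun x y h => by
    ext z
    rw [show M.fr.d 0 (single e 1) z = Cell.bd e.1 z.1 from M.ug.d_single 0 e z, h,
      ← M.ug.ι_single, ← M.ug.ι_single, ← map_sub, M.ug.ι_val]
  obtain ⟨⟨w, τ, c, h1, h2, h3⟩, he⟩ := e
  change τ.card + tdim c = 1 at he
  rcases c with t | e
  · obtain ⟨s, rfl⟩ := Finset.card_eq_one.1 he
    refine ⟨⟨Cell.hi ⟨w, {s}, .inl t, h1, h2, h3⟩ s, ?_⟩, ⟨Cell.lo ⟨w, {s}, .inl t, h1, h2, h3⟩ s, ?_⟩,
      key _ _ ?_⟩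
    · change (Finset.erase {s} s).card + 0 = 0
      simp
    · change (Finset.erase {s} s).card + 0 = 0
      simp
    · simp only [Cell.bd, Finset.sum_singleton, Mir.ε]
      rw [show Cell.en ⟨w, {s}, .inl t, h1, h2, h3⟩ true = Cell.en ⟨w, {s}, .inl t, h1, h2, h3⟩ false
        from rfl, sub_self, smul_zero, add_zero, Finset.filter_singleton, if_neg (lt_irrefl _)]
      simp
  · obtain rfl : τ = ∅ := Finset.card_eq_zero.1 (by change τ.card + 1 = 1 at he; omega)
    refine ⟨⟨Cell.en ⟨w, ∅, .inr e, h1, h2, h3⟩ false, rfl⟩, ⟨Cell.en ⟨w, ∅, .inr e, h1, h2, h3⟩ true, rfl⟩,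
      key _ _ ?_⟩
    simp [Cell.bd]

/-- the parity character of the big group -/
def par : M.G0 →* Multiplicative (K → ZMod 2) := MonoidHom.mk' (fun g => M.χ g.left) fun a b => by
  rw [SemidirectProduct.mul_left, map_mul, autHom_apply]
  exact congrArg _ (Multiplicative.toAdd.injective (funext fun k => M.ch_aut _ _ k))

omit [Finite K] in
theorem mem_par {g : M.G0} : g ∈ (par M).ker ↔ g ∈ M.Gs :=
  ⟨fun h k => congrFun (congrArg Multiplicative.toAdd (MonoidHom.mem_ker.1 h)) k,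
    fun h => MonoidHom.mem_ker.2 (Multiplicative.toAdd.injective (funext h))⟩

theorem gs_fi : M.Gs.FiniteIndex :=
  have := Subgroup.finiteIndex_ker (par M)
  Subgroup.finiteIndex_of_le (H := (par M).ker) fun _ h => (mem_par M).1 h

end cell

/-! ### cube complexes -/

section lab
variable {A P : Type} {Γ : SimpleGraph A} {st : P → A → P → Prop} {φ : P → W Γ}
  {G : Type} [Group G] [MulAction G P] {B : Set P}

theorem ball_fin (H : Lab Γ st φ) (hl : ∀ x, {y | ∃ a, st x a y}.Finite) (x : P) (R : ℕ) :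
    {y | dl φ x y ≤ R}.Finite :=
  ball_finite H.isGM (fun x => ((hl x).insert x).subset fun y hy => by
    change dl φ x y ≤ 1 at hy
    rcases Nat.eq_zero_or_pos (dl φ x y) with h | h
    · exact Or.inl (H.eq_of_dl h).symm
    · obtain ⟨a, z, h1, h2⟩ := H.step (n := 0) (x := x) (y := y) (by omega)
      exact Or.inr ⟨a, H.eq_of_dl h2 ▸ H.symm _ _ _ h1⟩) x R

theorem exists_hg (H : Lab Γ st φ) (hq : NoSq Γ) {n : ℕ} (hn : ClB Γ n) (C : Rg.Act st G B) :
    ∃ N, HG (dl φ) (2 * n) N := by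
  have h : ∀ R, ∃ N, ∀ x, {y | dl φ x y ≤ R}.ncard ≤ N := fun R => by
    obtain ⟨N, hN⟩ := (C.fin.image fun x => {y | dl φ x y ≤ R}.ncard).bddAbove
    refine ⟨N, fun x => ?_⟩
    obtain ⟨g, hg⟩ := C.cc x
    refine le_trans ?_ (hN ⟨_, hg, rfl⟩)
    exact Set.ncard_le_ncard_of_injOn (g • ·) (fun y hy => (Rg.dl_smul H C g x y).le.trans hy)
      (MulAction.injective g).injOn (ball_fin H C.hl _ _)
  choose N hN using h
  refine ⟨N, H.isGM, fun _ _ => H.eq_of_dl, ?_, ball_fin H C.hl, fun x R => hN R x⟩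
  have := (fp_racg hq hn).comap φ
  rw [Nat.cast_mul, Nat.cast_ofNat]
  exact this

variable (st φ) in
/-- the half spaces -/
abbrev Hh : Type := {h : Set P // Rg.IsH st φ h}

theorem wls (H : Lab Γ st φ) : Wls (dl φ) fun (h : Hh st φ) x => x ∈ h.1 := by
  have key : ∀ n z x, dl φ z x = n → {h : Hh st φ | z ∈ h.1 ∧ x ∉ h.1}.Finite ∧
      {h : Hh st φ | z ∈ h.1 ∧ x ∉ h.1}.ncard = n := fun n => by
    induction n with
    | zero =>
      intro z x e
      rw [H.eq_of_dl e]
      simp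
    | succ n ih =>
      intro z x e
      obtain ⟨a, y, h1, h2, h3⟩ := Rg.exists_step H e
      obtain ⟨f, c⟩ := ih z y h2
      have h4 := H.symm _ _ _ h1
      let k : Hh st φ := ⟨Rg.Hs φ y x, y, a, x, h4, rfl⟩
      have : {h : Hh st φ | z ∈ h.1 ∧ x ∉ h.1} = insert k {h : Hh st φ | z ∈ h.1 ∧ y ∉ h.1} := by
        ext h
        refine ⟨fun ⟨a1, a2⟩ => ?_, ?_⟩
        · by_cases hy : y ∈ h.1
          · exact Or.inl (Subtype.ext (h.2.eq H h4 hy a2))
          · exact Or.inr ⟨a1, hy⟩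
        · rintro (rfl | ⟨a1, a2⟩)
          · exact ⟨h3, Rg.not_mem H h4⟩
          · refine ⟨a1, fun hx => ?_⟩
            rw [h.2.eq H h1 hx a2] at a1
            exact lt_asymm (show dl φ z x < dl φ z y from a1) h3
      rw [this]
      exact ⟨f.insert _, by rw [Set.ncard_insert_of_notMem (fun m => m.2 (Rg.self_mem H h4)) f, c]⟩
  exact ⟨fun x y => (key _ x y rfl).1, fun x y => (key _ x y rfl).2⟩

/-- the action on half spaces -/
@[reducible] def actH (H : Lab Γ st φ) (C : Rg.Act st G B) : MulAction G (Hh st φ) where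
  smul g h := ⟨g • h.1, h.2.smul H C g⟩
  one_smul h := Subtype.ext (one_smul G h.1)
  mul_smul g g' h := Subtype.ext (mul_smul g g' h.1)

/-- **`Out G` is finite** for a cube complex without squares and a dual resolution -/
theorem fin_lab (hM : MainS) (H : Lab Γ st φ) (hq : NoSq Γ) {n : ℕ} (hn : ClB Γ n)
    (C : Rg.Act st G B) [Nonempty P] (J : Subgroup G) [J.Normal] [J.FiniteIndex]
    (cen : ∀ x : G, (∀ h ∈ J, Commute x h) → x = 1) {X : ℕ → Type} [∀ n, MulAction J (X n)]
    (R : FR J X) (hR : R.PD) (he : ∀ e, ∃ x y, R.d 0 (single e 1) = single y 1 - single x 1) :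
    (MulAut.conj (G := G)).range.FiniteIndex := by
  obtain ⟨N, hg⟩ := exists_hg H hq hn C
  obtain ⟨src, tgt, a1, a2, a3⟩ := exists_ends R he
  obtain ⟨B', hB', hc⟩ := Hi.cof_sub ⟨B, C.fin, C.cc⟩ J
  have fr : ∀ (g : J) (x : P), g • x = x → g = 1 := fun g x h => Subtype.ext (C.free g x h)
  obtain ⟨Sr⟩ := isoS J X R hR src tgt a1 a2 a3 P (dl φ) ⟨fr, hB'.toFinset, by simpa using hc⟩
    (fun g => Rg.dl_smul H C g.1) hg.fin (Ln.linS P _ _ N hg)
  obtain ⟨o⟩ := ‹Nonempty P›
  obtain ⟨T, hT, -⟩ := H.hyp hq hn (G := J) (fun g => C.hi g.1) C.hl hB' hc o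
    ((Set.finite_singleton 1).subset fun g hg => fr g o hg)
  letI := actH H C
  exact outS G J ⟨⟨T, hT⟩⟩ cen P (Hh st φ) (dl φ) _
    ⟨Rg.dl_smul H C, fun g h x => Set.smul_mem_smul_set_iff, C.free⟩
    ⟨C.free, C.fin.toFinset, by simpa using C.cc⟩ hg.fin
    (hM J _ _ _ Sr P (Hh st φ) _ _ N _ hg (wls H))

/-- the resolution comes from a mirror model -/
theorem fin_mir (hM : MainS) (H : Lab Γ st φ) (hq : NoSq Γ) {n : ℕ} (hn : ClB Γ n)
    (C : Rg.Act st G B) [Nonempty P] {S K F Nd Ed : Type} [DecidableEq S] [Group F]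
    [MulAction F Nd] [MulAction F Ed] [LinearOrder K] [Finite K] {M : N255.Ce.Mir S K F Nd Ed}
    (c : M.Cham) (j : G →* M.G0) (hj : Function.Injective j) (hf : j.range.FiniteIndex)
    (cen : ∀ x : G, (∀ h, j h ∈ M.Gs → Commute x h) → x = 1) :
    (MulAut.conj (G := G)).range.FiniteIndex := by
  let ψ := par M
  have e : ∀ g, g ∈ (ψ.comp j).ker ↔ j g ∈ M.Gs := fun g => mem_par M (g := j g)
  have := Subgroup.finiteIndex_ker (ψ.comp j)
  let i : (ψ.comp j).ker →* M.G :=
    (j.comp (ψ.comp j).ker.subtype).codRestrict M.Gs fun g => (e g).1 g.2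
  have hi : Function.Injective i := fun a b h => Subtype.ext (hj (congrArg Subtype.val h))
  have : i.range.FiniteIndex := Subgroup.finiteIndex_of_le (H := j.range.subgroupOf M.Gs) (by
    rintro ⟨_, h⟩ ⟨g, rfl⟩
    exact ⟨⟨g, (e g).2 h⟩, rfl⟩)
  exact @fin_lab _ _ _ _ _ _ _ _ _ hM H hq _ hn C _ (ψ.comp j).ker _ _
    (fun x h => cen x fun g hg => h g ((e g).2 hg)) _ (fun n => MulAction.compHom _ i)
    (res M.fr i hi) (res_pd c.pd i hi) (fr_edge M)

end lab

/-! ### centralisers -/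

theorem exists_ne_one {A B : Type} [Group A] [Group B] [Infinite A] (j : A →* B) (J : Subgroup B)
    [J.FiniteIndex] : ∃ a, a ≠ 1 ∧ j a ∈ J := by
  by_contra h
  push Not at h
  have e : J.comap j = ⊥ := eq_bot_iff.2 fun a ha => by_contra fun n => h a n ha
  have := (inferInstance : (J.subgroupOf j.range).FiniteIndex).index_ne_zero
  rw [← Subgroup.relIndex, ← Subgroup.index_comap, e, Subgroup.index_bot] at this
  exact this Nat.card_eq_zero_of_infinite

/-- subgroups of finite index have a trivial centraliser -/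
theorem cen_fi {S F : Type} {Γ : SimpleGraph S} [Group F] (ρ : F →* (Γ ≃g Γ)) [Infinite F]
    [Nonempty S] (free : ∀ f s, ρ f s = s → f = 1) (adj : ∀ f s, ¬Γ.Adj s (ρ f s))
    (J : Subgroup (W Γ ⋊[autHom ρ] F)) [J.FiniteIndex] (x : W Γ ⋊[autHom ρ] F)
    (hx : ∀ h ∈ J, Commute x h) : x = 1 := by
  have key : ∀ f (w : W Γ), w ≠ 1 → autHom ρ f w = w → f = 1 := fun f w hw e => by
    obtain ⟨s, hs⟩ := In_nonempty hw
    have := (mem_In_aut (ρ f)).2 hs
    rw [← autHom_apply, e] at this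
    by_contra n
    exact adj f s (In_clique w hs this fun c => n (free f s c.symm))
  obtain ⟨s⟩ := ‹Nonempty S›
  have : Infinite (W Γ) := Infinite.of_injective (fun f : F => gen Γ (ρ f s)) fun f g e => by
    have e' : ρ f s = ρ g s := gen_injective e
    refine (inv_mul_eq_one.1 (free (f⁻¹ * g) s ?_))
    rw [map_mul, map_inv, RelIso.mul_apply, ← e']
    exact (ρ f).symm_apply_apply s
  obtain ⟨f, hf, hf'⟩ := exists_ne_one (SemidirectProduct.inr (φ := autHom ρ)) J
  obtain ⟨u, hu, hu'⟩ := exists_ne_one (SemidirectProduct.inl (φ := autHom ρ)) J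
  have h1 : x.left = 1 := by_contra fun n => hf (key f _ n (by
    simpa using (congrArg SemidirectProduct.left (hx _ hf').eq).symm))
  exact SemidirectProduct.ext h1 (key _ u hu (by
    simpa [h1] using congrArg SemidirectProduct.left (hx _ hu').eq))

/-! ### the subdivided cover -/

section ps
open N255.Pt PS Lo

variable {ι I Tor : Type} [Fintype ι] [Fintype I] [Fintype Tor] [DecidableEq ι] [DecidableEq I]
  [DecidableEq Tor] (D : Dt ι I Tor (Fin 4))

theorem ps_free (f : FreeGroup ι) (a : PG D.Gt) (h : (mps D.mir).ρ f a = a) : f = 1 := by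
  have := ap_mps D.mir f a
  rw [h] at this
  exact L.free f _ this.symm

theorem ps_adj (f : FreeGroup ι) (a : PG D.Gt) : ¬(psG D.Gt).Adj a ((mps D.mir).ρ f a) := fun h =>
  (mps D.mir).col_ne _ _ h ((mps D.mir).col_ρ f a).symm

/-- **`Out G` is finite** for every subgroup of finite index of `W (ps X) ⋊ H` -/
theorem fin_D [Nonempty ι] (hM : MainS) (c : (mps D.mir).Cham)
    (ρ : FreeGroup ι →* (psG D.Gt ≃g psG D.Gt)) (hρ : ρ = (mps D.mir).ρ)
    (H : Subgroup (FreeGroup ι)) [H.FiniteIndex]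
    (G : Subgroup (W (psG D.Gt) ⋊[autHom (ρ.comp H.subtype)] H)) [G.FiniteIndex] :
    (MulAut.conj (G := G)).range.FiniteIndex := by
  have hX : ∀ A, D.Gt.IsClique A ↔ D.Gt.IsClique A := fun _ => Iff.rfl
  obtain ⟨φ, hφ⟩ := (Hi.mirD D hX).lab
  have : H.subtype.range.FiniteIndex := by rwa [H.range_subtype]
  have hG : G.subtype.range.FiniteIndex := by rwa [G.range_subtype]
  letI := Hi.actD H.subtype (ρ.comp H.subtype)
  have hc : ∀ (f : H) a, car ((ρ.comp H.subtype) f a) = (H.subtype f • ·) '' car a :=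
    fun f a => hρ ▸ car_mps D.mir f a
  obtain ⟨B, hB, hB'⟩ := Hi.cof_sub (Hi.actD_cof H.subtype (ρ.comp H.subtype)) G
  have C : Rg.Act (mst (psG D.Gt) (Hi.sr ι) (Hi.tg ι) (Ts Hi.Tc)) G B :=
    ⟨fun g _ _ _ h => ⟨_, Hi.actD_st _ _ hc g.1 h⟩, Hi.mstD_finite,
      fun g x h => Subtype.ext (Hi.actD_free _ _ H.subtype_injective g.1 x h), hB, hB'⟩
  have : Nonempty (PG D.Gt) := by
    obtain ⟨q, hq, h1⟩ := c.unit
    have h2 := c.or_dim q hq (by omega)
    have h3 : N255.Ce.tdim q.2 ≤ 1 := by rcases q.2 with _ | _ <;> simp [N255.Ce.tdim]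
    obtain ⟨a, -⟩ := Finset.card_pos.1 (show 0 < q.1.card by omega)
    exact ⟨a⟩
  have : Infinite H := by
    refine not_finite_iff_infinite.1 fun _ => ?_
    have := (Subgroup.finite_iff_finite_and_finiteIndex H).2 ⟨‹_›, ‹_›⟩
    exact not_finite (FreeGroup ι)
  have cen : ∀ (J : Subgroup (W (psG D.Gt) ⋊[autHom (ρ.comp H.subtype)] H)), J.FiniteIndex →
      ∀ x, (∀ h ∈ J, Commute x h) → x = 1 := fun J _ => cen_fi _
    (fun f a h => Subtype.ext (ps_free D f a (hρ ▸ h))) (fun f a h => ps_adj D f a (hρ ▸ h)) J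
  subst hρ
  refine fin_mir hM hφ (Hi.nsqD D hX) (Hi.clbD D hX) C (cres c H) G.subtype G.subtype_injective hG
    fun x hx => Subtype.ext (cen (G ⊓ (mres (mps D.mir) H).Gs) ?_ x.1 fun h hh =>
      congrArg Subtype.val (hx ⟨h, hh.1⟩ hh.2).eq)
  exact @Subgroup.instFiniteIndexMin _ _ _ _ ‹_› (gs_fi _)

end ps

end Crest.Agent.N233.Fi.In

end
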