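import Crest.Agent.N233.Fi.Defs

/-!
# Row 233 (helper82): equivariant lifting, bounds and real exactness for `IsoS`
-/

set_option autoImplicit false
open Finsupp

noncomputable section

namespace Crest.Agent.N233.Fi.Io

/-- integral chains as real chains -/
def cst {A : Type} : (A →₀ ℤ) →ₗ[ℤ] (A →₀ ℝ) := mapRange.linearMap (Algebra.linearMap ℤ ℝ)

theorem cst_apply {A : Type} (c : A →₀ ℤ) (a : A) : cst c a = (c a : ℝ) := by simp [cst]

theorem cst_single {A : Type} (a : A) (n : ℤ) : cst (single a n) = single a (n : ℝ) := by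
  simp [cst]

/-- the real extension of an integral map -/
def rx {A B : Type} (f : (A →₀ ℤ) →ₗ[ℤ] (B →₀ ℤ)) : (A →₀ ℝ) →ₗ[ℝ] (B →₀ ℝ) :=
  linearCombination ℝ fun a => cst (f (single a 1))

theorem rx_single {A B : Type} (f : (A →₀ ℤ) →ₗ[ℤ] (B →₀ ℤ)) (a : A) (r : ℝ) :
    rx f (single a r) = r • cst (f (single a 1)) := by
  rw [rx, linearCombination_single]

theorem rx_cst {A B : Type} (f : (A →₀ ℤ) →ₗ[ℤ] (B →₀ ℤ)) (c : A →₀ ℤ) :
    rx f (cst c) = cst (f c) := by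
  induction c using Finsupp.induction_linear with
  | zero => simp
  | add a b ha hb => simp only [map_add, ha, hb]
  | single a n =>
    rw [cst_single, rx_single, Int.cast_smul_eq_zsmul, ← map_smul, ← map_smul, smul_single,
      smul_eq_mul, mul_one]

open TensorProduct in
theorem rx_exact {A B C : Type} {f : (A →₀ ℤ) →ₗ[ℤ] (B →₀ ℤ)} {g : (B →₀ ℤ) →ₗ[ℤ] (C →₀ ℤ)}
    (h : Function.Exact f g) : Function.Exact (rx f) (rx g) := by
  classical
  have key : ∀ {A B : Type} (f : (A →₀ ℤ) →ₗ[ℤ] (B →₀ ℤ)) (t : ℝ ⊗[ℤ] (A →₀ ℤ)),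
      rx f (finsuppScalarRight ℤ ℤ ℝ A t) = finsuppScalarRight ℤ ℤ ℝ B (f.lTensor ℝ t) := by
    intro A B f t
    have e : ∀ {A : Type} (r : ℝ) (p : A →₀ ℤ),
        finsuppScalarRight ℤ ℤ ℝ A (r ⊗ₜ[ℤ] p) = r • cst p := fun r p => by
      ext a
      rw [finsuppScalarRight_apply_tmul_apply, Finsupp.smul_apply, cst_apply, zsmul_eq_mul,
        smul_eq_mul, mul_comm]
    induction t using TensorProduct.induction_on with
    | zero => simp
    | add a b ha hb => simp only [map_add, ha, hb]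
    | tmul r p => rw [LinearMap.lTensor_tmul, e, e, map_smul, rx_cst]
  have hT := Module.Flat.lTensor_exact ℝ h
  intro y
  obtain ⟨t, rfl⟩ := (finsuppScalarRight ℤ ℤ ℝ B).surjective y
  rw [key, map_eq_zero_iff _ (finsuppScalarRight ℤ ℤ ℝ C).injective, hT t]
  constructor
  · rintro ⟨u, rfl⟩
    exact ⟨_, key f u⟩
  · rintro ⟨x, hx⟩
    obtain ⟨u, rfl⟩ := (finsuppScalarRight ℤ ℤ ℝ A).surjective x
    rw [key] at hx
    exact ⟨u, (finsuppScalarRight ℤ ℤ ℝ B).injective hx⟩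

section eqv
variable {J : Type} [Group J] {X Y Z : Type} [MulAction J X] [MulAction J Y] [MulAction J Z]

/-- translation of chains -/
def tr (g : J) : (X →₀ ℝ) →ₗ[ℝ] (X →₀ ℝ) := lmapDomain ℝ ℝ (g • ·)

theorem tr_single (g : J) (x : X) (r : ℝ) : tr g (single x r) = single (g • x) r := by
  simp [tr]

theorem tr_apply (g : J) (c : X →₀ ℝ) (x : X) : tr g c (g • x) = c x :=
  mapDomain_apply (MulAction.injective g) c x

theorem tr_mul (g h : J) (c : X →₀ ℝ) : tr (g * h) c = tr g (tr h c) := by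
  simp only [tr, lmapDomain_apply]
  rw [← mapDomain_comp]
  congr 1
  funext x
  exact mul_smul g h x

theorem tr_one (c : X →₀ ℝ) : tr (1 : J) c = c := by
  simp only [tr, lmapDomain_apply, one_smul]
  exact mapDomain_id

variable (J) in
/-- equivariant linear maps -/
def Eqv (L : (X →₀ ℝ) →ₗ[ℝ] (Y →₀ ℝ)) : Prop := ∀ (g : J) c, L (tr g c) = tr g (L c)

theorem eqv_of {L : (X →₀ ℝ) →ₗ[ℝ] (Y →₀ ℝ)}
    (h : ∀ (g : J) x, L (single (g • x) 1) = tr g (L (single x 1))) : Eqv J L := fun g c => by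
  induction c using Finsupp.induction_linear with
  | zero => simp
  | add a b ha hb => simp only [map_add, ha, hb]
  | single x r =>
    rw [tr_single, ← mul_one r, ← smul_eq_mul, ← smul_single, ← smul_single, map_smul, map_smul,
      map_smul, h]

theorem Eqv.comp {L : (Y →₀ ℝ) →ₗ[ℝ] (Z →₀ ℝ)} {M : (X →₀ ℝ) →ₗ[ℝ] (Y →₀ ℝ)} (hL : Eqv J L)
    (hM : Eqv J M) : Eqv J (L ∘ₗ M) := fun g c => by
  rw [LinearMap.comp_apply, LinearMap.comp_apply, hM, hL]

theorem Eqv.sub {L M : (X →₀ ℝ) →ₗ[ℝ] (Y →₀ ℝ)} (hL : Eqv J L) (hM : Eqv J M) :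
    Eqv J (L - M) := fun g c => by
  rw [LinearMap.sub_apply, LinearMap.sub_apply, hM, hL, map_sub]

theorem eqv_id : Eqv J (LinearMap.id : (X →₀ ℝ) →ₗ[ℝ] (X →₀ ℝ)) := fun _ _ => rfl

/-- the lifting lemma -/
theorem lift (hf : ∀ (g : J) (x : X), g • x = x → g = 1) {W : Type}
    {D : (Y →₀ ℝ) →ₗ[ℝ] (Z →₀ ℝ)} (hD : Eqv J D) {D' : (Z →₀ ℝ) →ₗ[ℝ] (W →₀ ℝ)}
    (ex : ∀ z, D' z = 0 → ∃ y, D y = z) {F : (X →₀ ℝ) →ₗ[ℝ] (Z →₀ ℝ)} (hF : Eqv J F)
    (h0 : ∀ c, D' (F c) = 0) :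
    ∃ L : (X →₀ ℝ) →ₗ[ℝ] (Y →₀ ℝ), Eqv J L ∧ ∀ c, D (L c) = F c := by
  let rp : X → X := fun x => (Quotient.mk (MulAction.orbitRel J X) x).out
  have hr : ∀ x, ∃ g : J, g • rp x = x := fun x => by
    have := Quotient.mk_out (s := MulAction.orbitRel J X) x
    obtain ⟨g, hg⟩ := MulAction.orbitRel_apply.1 this
    exact ⟨g⁻¹, by rw [inv_smul_eq_iff]; exact hg.symm⟩
  choose ga hga using hr
  have hrs : ∀ (g : J) x, rp (g • x) = rp x := fun g x =>
    congrArg Quotient.out (Quotient.sound (MulAction.orbitRel_apply.2 ⟨g, rfl⟩))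
  have hgs : ∀ (g : J) x, ga (g • x) = g * ga x := fun g x => by
    have h1 := hga (g • x)
    rw [hrs] at h1
    have := hf ((g * ga x)⁻¹ * ga (g • x)) (rp x) (by
      rw [mul_smul, h1, inv_smul_eq_iff, mul_smul, hga])
    exact (inv_mul_eq_one.1 this).symm
  choose y hy using fun x => ex _ (h0 (single x 1))
  refine ⟨linearCombination ℝ fun x => tr (ga x) (y (rp x)), eqv_of fun g x => ?_, fun c => ?_⟩
  · simp only [linearCombination_single, one_smul]
    rw [hgs, hrs, tr_mul]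
  · induction c using Finsupp.induction_linear with
    | zero => simp
    | add a b ha hb => simp only [map_add, ha, hb]
    | single x r =>
      rw [linearCombination_single, map_smul, hD, hy, ← hF, tr_single, hga, ← map_smul,
        smul_single, smul_eq_mul, mul_one]

theorem n1_nonneg (c : X →₀ ℝ) : 0 ≤ n1 c := Finset.sum_nonneg fun _ _ => abs_nonneg _

theorem sum_le_n1 (c : X →₀ ℝ) (s : Finset X) : ∑ x ∈ s, |c x| ≤ n1 c := by
  classical
  rw [n1, Finsupp.sum, ← Finset.sum_filter_ne_zero]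
  refine Finset.sum_le_sum_of_subset_of_nonneg (fun x hx => ?_) fun _ _ _ => abs_nonneg _
  exact mem_support_iff.2 (abs_ne_zero.1 (Finset.mem_filter.1 hx).2)

theorem n1_add_le (a b : X →₀ ℝ) : n1 (a + b) ≤ n1 a + n1 b := by
  refine le_trans ?_ (add_le_add (sum_le_n1 a (a + b).support) (sum_le_n1 b (a + b).support))
  rw [n1, Finsupp.sum, ← Finset.sum_add_distrib]
  exact Finset.sum_le_sum fun x _ => abs_add_le _ _

theorem n1_smul_le (r : ℝ) (a : X →₀ ℝ) : n1 (r • a) ≤ |r| * n1 a := by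
  refine le_trans ?_ (mul_le_mul_of_nonneg_left (sum_le_n1 a (r • a).support) (abs_nonneg r))
  rw [n1, Finsupp.sum, Finset.mul_sum]
  exact Finset.sum_le_sum fun x _ => (abs_mul _ _).le

theorem n1_sub_le (a b : X →₀ ℝ) : n1 (a - b) ≤ n1 a + n1 b := by
  have h := n1_smul_le (-1) b
  rw [abs_neg, abs_one, one_mul, neg_one_smul] at h
  rw [sub_eq_add_neg]
  exact (n1_add_le _ _).trans (by linarith)

theorem n1_sum_le {ι : Type} (s : Finset ι) (f : ι → X →₀ ℝ) :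
    n1 (∑ i ∈ s, f i) ≤ ∑ i ∈ s, n1 (f i) := by
  classical
  induction s using Finset.induction_on with
  | empty => simp [n1]
  | insert i s hi ih =>
    rw [Finset.sum_insert hi, Finset.sum_insert hi]
    exact (n1_add_le _ _).trans (by linarith)

theorem n1_tr (g : J) (c : X →₀ ℝ) : n1 (tr g c) = n1 c :=
  sum_mapDomain_index_inj (MulAction.injective g)

theorem map_eq_sum (L : (X →₀ ℝ) →ₗ[ℝ] (Y →₀ ℝ)) (c : X →₀ ℝ) :
    L c = ∑ x ∈ c.support, c x • L (single x 1) := by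
  conv_lhs => rw [← c.sum_single, Finsupp.sum, map_sum]
  refine Finset.sum_congr rfl fun x _ => ?_
  rw [← map_smul, smul_single, smul_eq_mul, mul_one]

/-- the bound lemma for norms -/
theorem Eqv.bound {L : (X →₀ ℝ) →ₗ[ℝ] (Y →₀ ℝ)} (hL : Eqv J L) (s : Finset X) :
    ∃ C : ℝ, 0 ≤ C ∧ ∀ c : X →₀ ℝ, (∀ x, c x ≠ 0 → ∃ g : J, g • x ∈ s) → n1 (L c) ≤ C * n1 c := by
  refine ⟨∑ x ∈ s, n1 (L (single x 1)), Finset.sum_nonneg fun _ _ => n1_nonneg _, fun c hc => ?_⟩
  rw [map_eq_sum L c, n1.eq_1 c, Finsupp.sum, Finset.mul_sum]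
  refine (n1_sum_le _ _).trans (Finset.sum_le_sum fun x hx => ?_)
  obtain ⟨g, hg⟩ := hc x (mem_support_iff.1 hx)
  refine (n1_smul_le _ _).trans ?_
  rw [mul_comm, ← n1_tr g, ← hL, tr_single]
  exact mul_le_mul_of_nonneg_right
    (Finset.single_le_sum (f := fun x => n1 (L (single x 1))) (fun _ _ => n1_nonneg _) hg)
    (abs_nonneg _)

/-- the bound lemma for supports -/
theorem Eqv.supp {L : (X →₀ ℝ) →ₗ[ℝ] (Y →₀ ℝ)} (hL : Eqv J L) (s : Finset X)
    (hs : ∀ x : X, ∃ g : J, g • x ∈ s) (w : Y → ℕ) (hw : ∀ (g : J) y, w (g • y) = w y) :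
    ∃ D : ℕ, ∀ c y, L c y ≠ 0 → w y ≤ D := by
  refine ⟨s.sup fun x => (L (single x 1)).support.sup w, fun c y hy => ?_⟩
  rw [map_eq_sum, Finsupp.finsetSum_apply] at hy
  obtain ⟨x, -, hx⟩ := Finset.exists_ne_zero_of_sum_ne_zero hy
  obtain ⟨g, hg⟩ := hs x
  have h1 : L (single (g • x) 1) (g • y) ≠ 0 := by
    rw [← tr_single, hL, tr_apply]
    exact right_ne_zero_of_mul (by simpa using hx)
  rw [← hw g]
  exact (Finset.le_sup (f := w) (mem_support_iff.2 h1)).trans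
    (Finset.le_sup (f := fun x => (L (single x 1)).support.sup w) hg)

end eqv

end Crest.Agent.N233.Fi.Io

end
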