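import Crest.Agent.N233.Fi.Defs

/-!
# Row 233 (helper69): invariant partitions of unity on graphs of slow growth
-/

set_option autoImplicit false

noncomputable section

namespace Crest.Agent.N233.Fi

open Finset

variable {Z : Type} {A : Z → Z → Prop}

theorem Bl_succ {k : ℕ} {z y : Z} : y ∈ Bl A (k + 1) z ↔ y ∈ Bl A k z ∨ ∃ x ∈ Bl A k z, A x y :=
  Iff.rfl

theorem Bl_zero {z y : Z} : y ∈ Bl A 0 z ↔ y = z := Iff.rfl

theorem Bl_mono {k l : ℕ} (h : k ≤ l) {z y : Z} (hy : y ∈ Bl A k z) : y ∈ Bl A l z := by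
  induction h with
  | refl => exact hy
  | step _ ih => exact Or.inl ih

theorem Bl_self (k : ℕ) (z : Z) : z ∈ Bl A k z := Bl_mono k.zero_le (Bl_zero.2 rfl)

theorem Bl_step {k : ℕ} {z y y' : Z} (hy : y ∈ Bl A k z) (h : A y y') : y' ∈ Bl A (k + 1) z :=
  Or.inr ⟨y, hy, h⟩

theorem Bl_trans {k l : ℕ} {z y w : Z} (hy : y ∈ Bl A k z) (hw : w ∈ Bl A l y) :
    w ∈ Bl A (k + l) z := by
  induction l generalizing w with
  | zero => rwa [Bl_zero.1 hw]
  | succ l ih =>
    rcases hw with hw | ⟨x, hx, h⟩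
    · exact Or.inl (ih hw)
    · exact Or.inr ⟨x, ih hx, h⟩

theorem Bl_symm (hs : ∀ x y, A x y → A y x) {k : ℕ} {z y : Z} (hy : y ∈ Bl A k z) :
    z ∈ Bl A k y := by
  induction k generalizing y with
  | zero => exact (Bl_zero.1 hy).symm
  | succ k ih =>
    rcases hy with hy | ⟨x, hx, h⟩
    · exact Or.inl (ih hy)
    · have := Bl_trans (Bl_step (Bl_self 0 y) (hs _ _ h)) (ih hx)
      rwa [zero_add, add_comm] at this

theorem Bl_map {f : Z → Z} (hf : ∀ x y, A x y → A (f x) (f y)) {k : ℕ} {z y : Z}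
    (hy : y ∈ Bl A k z) : f y ∈ Bl A k (f z) := by
  induction k generalizing y with
  | zero => exact congrArg f (Bl_zero.1 hy)
  | succ k ih =>
    rcases hy with hy | ⟨x, hx, h⟩
    · exact Or.inl (ih hy)
    · exact Or.inr ⟨f x, ih hx, hf _ _ h⟩

theorem Bl_ind {p : Z → Prop} {z : Z} (h0 : p z) (h1 : ∀ x y, p x → A x y → p y) {k : ℕ} {y : Z}
    (hy : y ∈ Bl A k z) : p y := by
  induction k generalizing y with
  | zero => rwa [Bl_zero.1 hy]
  | succ k ih =>
    rcases hy with hy | ⟨x, hx, h⟩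
    · exact ih hy
    · exact h1 _ _ (ih hx) h

open Classical in
/-- the indicator of a ball -/
def ind (A : Z → Z → Prop) (k : ℕ) (z y : Z) : ℝ := if y ∈ Bl A k z then 1 else 0

/-- the bump -/
def bump (A : Z → Z → Prop) (θ : ℝ) (R : ℕ) (z y : Z) : ℝ :=
  ∑ k ∈ range R, (θ ^ k - θ ^ (k + 1)) * ind A k z y

theorem ind_nn (k : ℕ) (z y : Z) : 0 ≤ ind A k z y := by unfold ind; split_ifs <;> norm_num

theorem ind_step {k : ℕ} {z y y' : Z} (h : A y y') : ind A k z y ≤ ind A (k + 1) z y' := by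
  unfold ind
  by_cases c : y ∈ Bl A k z
  · rw [if_pos c, if_pos (Bl_step c h)]
  · rw [if_neg c]; split_ifs <;> norm_num

variable {θ ε : ℝ} {R : ℕ}

theorem cf_nn (h0 : 0 < θ) (h1 : θ ≤ 1) (k : ℕ) : 0 ≤ θ ^ k - θ ^ (k + 1) := by
  rw [pow_succ]; nlinarith [pow_pos h0 k]

theorem bump_nn (h0 : 0 < θ) (h1 : θ ≤ 1) (z y : Z) : 0 ≤ bump A θ R z y :=
  sum_nonneg fun k _ => mul_nonneg (cf_nn h0 h1 k) (ind_nn _ _ _)

theorem bump_self (z : Z) : bump A θ R z z = 1 - θ ^ R := by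
  have : ∀ k, ind A k z z = 1 := fun k => if_pos (Bl_self k z)
  simp only [bump, this, mul_one]
  rw [sum_range_sub' fun k => θ ^ k, pow_zero]

theorem bump_sup {z y : Z} (h : bump A θ R z y ≠ 0) : y ∈ Bl A R z := by
  obtain ⟨k, hk, h⟩ := exists_ne_zero_of_sum_ne_zero h
  by_contra c
  exact h (by rw [ind, if_neg fun c' => c (Bl_mono (mem_range.1 hk).le c'), mul_zero])

theorem bump_step (hε : 0 < ε) (h0 : 0 < θ) (h : θ * (1 + ε) = 1) {z y y' : Z} (a : A y y') :
    bump A θ R z y - bump A θ R z y' ≤ ε * bump A θ R z y' + ε * θ ^ R * ind A R z y' := by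
  have h1 : θ ≤ 1 := by nlinarith
  have e1 : bump A θ R z y ≤ ∑ k ∈ range R, (θ ^ k - θ ^ (k + 1)) * ind A (k + 1) z y' :=
    sum_le_sum fun k _ => mul_le_mul_of_nonneg_left (ind_step a) (cf_nn h0 h1 k)
  have e2 : ∑ k ∈ range R, (θ ^ k - θ ^ (k + 1)) * ind A (k + 1) z y' =
      (1 + ε) * ∑ k ∈ range R, (θ ^ (k + 1) - θ ^ (k + 1 + 1)) * ind A (k + 1) z y' := by
    rw [mul_sum]
    refine sum_congr rfl fun k _ => ?_
    have : θ ^ k - θ ^ (k + 1) = (1 + ε) * (θ ^ (k + 1) - θ ^ (k + 1 + 1)) := by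
      have : (1 + ε) * (θ ^ (k + 1) - θ ^ (k + 1 + 1)) = θ * (1 + ε) * (θ ^ k - θ ^ (k + 1)) := by
        ring
      rw [this, h, one_mul]
    rw [this, mul_assoc]
  have e3 := sum_range_succ' (fun k => (θ ^ k - θ ^ (k + 1)) * ind A k z y') R
  have e4 := sum_range_succ (fun k => (θ ^ k - θ ^ (k + 1)) * ind A k z y') R
  have e5 : 0 ≤ (θ ^ 0 - θ ^ (0 + 1)) * ind A 0 z y' := mul_nonneg (cf_nn h0 h1 0) (ind_nn _ _ _)
  have e6 : (1 + ε) * (θ ^ R - θ ^ (R + 1)) = ε * θ ^ R := by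
    have : (1 + ε) * (θ ^ R - θ ^ (R + 1)) = (1 + ε) * θ ^ R - θ * (1 + ε) * θ ^ R := by ring
    rw [this, h]; ring
  have e7 : ∑ k ∈ range R, (θ ^ (k + 1) - θ ^ (k + 1 + 1)) * ind A (k + 1) z y' ≤
      bump A θ R z y' + (θ ^ R - θ ^ (R + 1)) * ind A R z y' := by
    unfold bump; linarith
  have e8 := mul_le_mul_of_nonneg_left e7 (by linarith : 0 ≤ 1 + ε)
  rw [mul_add, ← mul_assoc, e6] at e8
  linarith

theorem sum_div_osc {s : Finset Z} {a b : Z → ℝ} (ha : ∀ z, 0 ≤ a z) (hb : ∀ z, 0 ≤ b z)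
    (h1 : 1 / 2 ≤ ∑ z ∈ s, b z) (h2 : ∑ z ∈ s, b z ≤ ∑ z ∈ s, a z)
    (h3 : ∑ z ∈ s, |a z - b z| ≤ ε * (∑ z ∈ s, a z + ∑ z ∈ s, b z) + 2 * ε) (hε : 0 < ε) :
    ∑ z ∈ s, |a z / ∑ z ∈ s, a z - b z / ∑ z ∈ s, b z| ≤ 12 * ε := by
  set S := ∑ z ∈ s, a z with hS
  set S' := ∑ z ∈ s, b z with hS'
  have p' : 0 < S' := by linarith
  have p : 0 < S := by linarith
  have e1 : ∀ z, |a z / S - b z / S'| ≤ |a z - b z| / S + b z * ((S - S') / (S * S')) := fun z => by
    have : a z / S - b z / S' = (a z - b z) / S - b z * ((S - S') / (S * S')) := by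
      field_simp; ring
    rw [this]
    refine (abs_sub _ _).trans (add_le_add ?_ ?_)
    · rw [abs_div, abs_of_pos p]
    · rw [abs_of_nonneg (mul_nonneg (hb z) (div_nonneg (by linarith) (by positivity)))]
  have e2 : S - S' ≤ ∑ z ∈ s, |a z - b z| := by
    rw [hS, hS', ← sum_sub_distrib]
    exact sum_le_sum fun z _ => le_abs_self _
  refine (sum_le_sum fun z _ => e1 z).trans ?_
  rw [sum_add_distrib, ← sum_div, ← sum_mul, ← hS']
  have e3 : S' * ((S - S') / (S * S')) = (S - S') / S := by field_simp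
  rw [e3, ← add_div, div_le_iff₀ p]
  have _ := ha
  nlinarith

theorem puS : PuS := by
  classical
  intro J Z _ _ A hs hg ε R hε h2 hB
  set θ : ℝ := (1 + ε)⁻¹ with hθ
  have h0 : 0 < θ := by positivity
  have h : θ * (1 + ε) = 1 := inv_mul_cancel₀ (by positivity)
  have h1 : θ ≤ 1 := by nlinarith
  have hR : θ ^ R * (1 + ε) ^ R = 1 := by rw [← mul_pow, h, one_pow]
  have hR0 : 0 < θ ^ R := pow_pos h0 R
  have hR2 : θ ^ R ≤ 1 / 2 := by nlinarith
  let Bf : Z → Finset Z := fun y => (hB y).1.toFinset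
  have mB : ∀ y z, z ∈ Bf y ↔ z ∈ Bl A R y := fun y z => Set.Finite.mem_toFinset _
  let S : Z → ℝ := fun y => ∑ z ∈ Bf y, bump A θ R z y
  have hS : ∀ y (s : Finset Z), (∀ z, bump A θ R z y ≠ 0 → z ∈ s) →
      ∑ z ∈ s, bump A θ R z y = S y := fun y s hs' => by
    have a1 : ∑ z ∈ s, bump A θ R z y = ∑ z ∈ s ∪ Bf y, bump A θ R z y :=
      sum_subset subset_union_left fun z _ n => by_contra fun c => n (hs' z c)
    have a2 : S y = ∑ z ∈ s ∪ Bf y, bump A θ R z y :=
      sum_subset subset_union_right fun z _ n => by_contra fun c =>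
        n ((mB _ _).2 (Bl_symm hs (bump_sup c)))
    rw [a1, a2]
  have hS2 : ∀ y, 1 / 2 ≤ S y := fun y => by
    have := single_le_sum (f := fun z => bump A θ R z y) (fun z _ => bump_nn h0 h1 z y)
      ((mB y y).2 (Bl_self R y))
    simp only [bump_self] at this
    change _ ≤ S y at this
    linarith
  have hiff : ∀ (g : J) k z y, g • y ∈ Bl A k (g • z) ↔ y ∈ Bl A k z := fun g k z y =>
    ⟨fun c => by simpa using Bl_map (hg g⁻¹) c, Bl_map (hg g)⟩
  have hbg : ∀ (g : J) z y, bump A θ R (g • z) (g • y) = bump A θ R z y := fun g z y => by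
    simp only [bump, ind, hiff]
  have hSg : ∀ (g : J) y, S (g • y) = S y := fun g y => by
    rw [← hS (g • y) ((Bf y).image (g • ·)) fun z c => mem_image.2 ⟨g⁻¹ • z, (mB _ _).2
      ((hiff g _ _ _).1 (by rw [smul_inv_smul]; exact Bl_symm hs (bump_sup c))), smul_inv_smul _ _⟩,
      sum_image fun a _ b _ e => MulAction.injective g e]
    exact sum_congr rfl fun z _ => hbg g z y
  have hind : ∀ y (s : Finset Z), θ ^ R * ∑ z ∈ s, ind A R z y ≤ 1 := fun y s => by
    have a1 : ∑ z ∈ s, ind A R z y ≤ (Bf y).card := by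
      simp only [ind, sum_boole, Nat.cast_le]
      exact card_le_card fun z hz => (mB _ _).2 (Bl_symm hs (mem_filter.1 hz).2)
    have a2 : ((Bf y).card : ℝ) ≤ (1 + ε) ^ R := by
      rw [← Set.ncard_eq_toFinset_card _ (hB y).1]; exact (hB y).2
    nlinarith
  have key : ∀ y y', A y y' → S y' ≤ S y → ∀ s : Finset Z,
      ∑ z ∈ s, |bump A θ R z y / S y - bump A θ R z y' / S y'| ≤ 12 * ε := fun y y' a le s => by
    let u := s ∪ (Bf y ∪ Bf y')
    have u1 : ∑ z ∈ u, bump A θ R z y = S y := hS _ _ fun z c => mem_union_right _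
      (mem_union_left _ ((mB _ _).2 (Bl_symm hs (bump_sup c))))
    have u2 : ∑ z ∈ u, bump A θ R z y' = S y' := hS _ _ fun z c => mem_union_right _
      (mem_union_right _ ((mB _ _).2 (Bl_symm hs (bump_sup c))))
    refine (sum_le_sum_of_subset_of_nonneg (t := u) subset_union_left
      fun _ _ _ => abs_nonneg _).trans ?_
    have := sum_div_osc (s := u) (a := fun z => bump A θ R z y) (b := fun z => bump A θ R z y')
      (fun z => bump_nn h0 h1 z y) (fun z => bump_nn h0 h1 z y') (by rw [u2]; exact hS2 y')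
      (by rw [u1, u2]; exact le) ?_ hε
    · rwa [u1, u2] at this
    have b1 : ∀ z, |bump A θ R z y - bump A θ R z y'| ≤ ε * (bump A θ R z y + bump A θ R z y') +
        ε * (θ ^ R * ind A R z y + θ ^ R * ind A R z y') := fun z => by
      have c1 := bump_step (R := R) (z := z) hε h0 h a
      have c2 := bump_step (R := R) (z := z) hε h0 h (hs _ _ a)
      have c3 := mul_nonneg hε.le (bump_nn (A := A) (R := R) h0 h1 z y)
      have c4 := mul_nonneg hε.le (bump_nn (A := A) (R := R) h0 h1 z y')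
      have c5 := mul_nonneg (mul_nonneg hε.le hR0.le) (ind_nn (A := A) R z y)
      have c6 := mul_nonneg (mul_nonneg hε.le hR0.le) (ind_nn (A := A) R z y')
      rw [abs_le]
      constructor <;> nlinarith
    refine (sum_le_sum fun z _ => b1 z).trans ?_
    rw [sum_add_distrib, ← mul_sum, ← mul_sum, sum_add_distrib, sum_add_distrib, ← mul_sum,
      ← mul_sum]
    nlinarith [hind y u, hind y' u]
  refine ⟨fun z y => bump A θ R z y / S y, fun z y => div_nonneg (bump_nn h0 h1 z y)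
    (by linarith [hS2 y]), fun z y c => ?_, fun y s c => ?_, fun g z y => by rw [hbg, hSg],
    fun y y' a s => ?_⟩
  · have := bump_sup (left_ne_zero_of_mul (div_eq_mul_inv _ (S y) ▸ c))
    exact ⟨this, Bl_symm hs this⟩
  · have p : S y ≠ 0 := by linarith [hS2 y]
    rw [← sum_div, hS y s fun z n => c z (div_ne_zero n p), div_self p]
  · rcases le_total (S y') (S y) with le | le
    · exact key y y' a le s
    · simpa only [abs_sub_comm] using key y' y (hs _ _ a) le s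

end Crest.Agent.N233.Fi

end
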