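import Crest.Agent.N233.Fi.Geo
import Crest.Agent.N233.Fi.Pu

/-!
# Row 233 (helper69): the leaves of the pulled back half spaces have linear growth
-/

set_option autoImplicit false

noncomputable section

namespace Crest.Agent.N233.Fi

open Hyp R179.HM998

section sec
variable {J X : Type} [Group J] [MulAction J X]

/-- a section of a free action -/
structure Sec (J X : Type) [Group J] [MulAction J X] where
  r : X → X
  c : X → J
  s : Finset X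
  cr : ∀ x, c x • r x = x
  r_smul : ∀ (g : J) x, r (g • x) = r x
  c_smul : ∀ (g : J) x, c (g • x) = g * c x
  mem : ∀ x, r x ∈ s

theorem Fc.sec (h : Fc J X) : Nonempty (Sec J X) := by
  classical
  obtain ⟨s, hs⟩ := h.fin
  let r : X → X := fun x => (Quotient.mk (MulAction.orbitRel J X) x).out
  have h1 : ∀ x, ∃ g : J, g • r x = x := fun x =>
    (MulAction.orbitRel J X).symm (Quotient.mk_out (s := MulAction.orbitRel J X) x)
  have h2 : ∀ (g : J) x, r (g • x) = r x := fun g x =>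
    congrArg Quotient.out (Quotient.sound ⟨g, rfl⟩)
  choose c hc using h1
  refine ⟨r, c, s.image r, hc, h2, fun g x => ?_, fun x => ?_⟩
  · have e : c (g • x) • r x = (g * c x) • r x := by rw [mul_smul, hc, ← h2 g x, hc]
    have := h.free ((g * c x)⁻¹ * c (g • x)) (r x) (by rw [mul_smul, e, inv_smul_smul])
    exact (inv_mul_eq_one.1 this).symm
  · obtain ⟨g, hg⟩ := hs x
    exact Finset.mem_image.2 ⟨_, hg, h2 g x⟩

theorem Sec.r_eq (σ : Sec J X) (x : X) : σ.r x = (σ.c x)⁻¹ • x := eq_inv_smul_iff.2 (σ.cr x)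

theorem Sec.c_r (σ : Sec J X) (x : X) : σ.c (σ.r x) = 1 := by
  rw [σ.r_eq, σ.c_smul, inv_mul_cancel]

theorem Sec.r_r (σ : Sec J X) (x : X) : σ.r (σ.r x) = σ.r x := by
  conv_lhs => rw [σ.r_eq x, σ.r_smul]

theorem Fc.bdd {α : Type} [Preorder α] [IsDirectedOrder α] [Nonempty α] (h : Fc J X) (n : X → α)
    (hn : ∀ (g : J) x, n (g • x) = n x) : ∃ C, ∀ x, n x ≤ C := by
  obtain ⟨s, hs⟩ := h.fin
  obtain ⟨C, hC⟩ := (s.finite_toSet.image n).bddAbove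
  exact ⟨C, fun x => (hs x).elim fun g hg => hn g x ▸ hC ⟨_, hg, rfl⟩⟩

theorem ncard_fib {α β : Type} (t : Finset β) (f : α → β) {s : Set α} {M : ℕ}
    (h1 : ∀ a ∈ s, f a ∈ t)
    (h2 : ∀ b, {a | a ∈ s ∧ f a = b}.Finite ∧ {a | a ∈ s ∧ f a = b}.ncard ≤ M) :
    s.Finite ∧ s.ncard ≤ t.card * M := by
  classical
  have h : s ⊆ ↑(t.biUnion fun b => (h2 b).1.toFinset) := fun a ha => by
    simp only [Finset.coe_biUnion, Set.mem_iUnion, Finset.mem_coe, Set.Finite.mem_toFinset]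
    exact ⟨_, h1 a ha, ha, rfl⟩
  refine ⟨(Finset.finite_toSet _).subset h, (Set.ncard_le_ncard h).trans ?_⟩
  rw [Set.ncard_coe_finset]
  exact Finset.card_biUnion_le_card_mul _ _ _ fun b _ => by
    rw [← Set.ncard_eq_toFinset_card _ (h2 b).1]; exact (h2 b).2

end sec

variable {J V E T P H : Type} [Group J] [MulAction J V] [MulAction J E] [MulAction J T]
  (S : Src J V E T) {d : P → P → ℕ} {δ : ℕ} {N : ℕ → ℕ} {mem : H → P → Prop}

namespace Src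

/-- the vertices near an edge -/
def Nb (e : E) : Set V :=
  {x | x = S.src e ∨ x = S.tgt e ∨ ∃ σ e', S.B σ e ≠ 0 ∧ S.B σ e' ≠ 0 ∧ (x = S.src e' ∨ x = S.tgt e')}

theorem cof_fin (e : E) : {σ | S.B σ e ≠ 0}.Finite := by
  obtain ⟨s, hs⟩ := S.fT.fin
  have h1 : (⋃ y ∈ (s : Set T), ((S.B y).support : Set E)).Finite :=
    s.finite_toSet.biUnion fun _ _ => Finset.finite_toSet _
  refine (((N255.Gc.finite_mov S.fE.free e h1).prod s.finite_toSet).image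
    fun p : J × T => p.1⁻¹ • p.2).subset fun y hy => ?_
  obtain ⟨g, hg⟩ := hs y
  refine ⟨(g, g • y), ⟨?_, hg⟩, inv_smul_smul g y⟩
  simp only [Set.mem_ofPred_eq, Set.mem_iUnion, Finset.mem_coe, Finsupp.mem_support_iff]
  exact ⟨g • y, hg, by rw [S.B_smul]; exact hy⟩

theorem Nb_fin (e : E) : (S.Nb e).Finite := by
  have h : (⋃ σ ∈ {σ | S.B σ e ≠ 0}, ((S.B σ).support : Set E)).Finite :=
    (S.cof_fin e).biUnion fun _ _ => Finset.finite_toSet _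
  refine ((((h.image S.src).union (h.image S.tgt)).insert (S.tgt e)).insert (S.src e)).subset ?_
  rintro x (a | a | ⟨σ, e', a, b, c⟩)
  · exact Or.inl a
  · exact Or.inr (Or.inl a)
  · have : e' ∈ ⋃ σ ∈ {σ | S.B σ e ≠ 0}, ((S.B σ).support : Set E) :=
      Set.mem_biUnion (x := σ) a (Finsupp.mem_support_iff.2 b)
    exact Or.inr (Or.inr (c.imp (fun c => ⟨_, this, c.symm⟩) fun c => ⟨_, this, c.symm⟩))

theorem Nb_smul (g : J) {e : E} {x : V} (h : x ∈ S.Nb e) : g • x ∈ S.Nb (g • e) := by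
  rcases h with rfl | rfl | ⟨σ, e', a, b, c⟩
  · exact Or.inl (S.src_smul _ _).symm
  · exact Or.inr (Or.inl (S.tgt_smul _ _).symm)
  · refine Or.inr (Or.inr ⟨g • σ, g • e', by rwa [S.B_smul], by rwa [S.B_smul], ?_⟩)
    rw [S.src_smul, S.tgt_smul]
    exact c.imp (congrArg _) (congrArg _)

theorem Nb_bdd : ∃ n, ∀ e, (S.Nb e).ncard ≤ n := by
  have h : ∀ (g : J) e, (S.Nb e).ncard ≤ (S.Nb (g • e)).ncard := fun g e =>
    Set.ncard_le_ncard_of_injOn (g • ·) (fun _ h => S.Nb_smul g h) (MulAction.injective g).injOn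
      (S.Nb_fin _)
  exact S.fE.bdd _ fun g e => le_antisymm (by simpa using h g⁻¹ (g • e)) (h g e)

variable (d mem) (f : V → P) (D ρ : ℕ)

/-- the images of the ends of an edge -/
def En (e : E) (p q : P) : Prop :=
  (p = f (S.src e) ∧ q = f (S.tgt e)) ∨ (p = f (S.tgt e) ∧ q = f (S.src e))

/-- the edge crosses the half space -/
def Cr (z : H × E) : Prop := ¬(mem z.1 (f (S.src z.2)) ↔ mem z.1 (f (S.tgt z.2)))

/-- regular crossing -/
def Reg (z : H × E) : Prop :=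
  ∃ p q, S.En f z.2 p q ∧ mem z.1 p ∧ ¬mem z.1 q ∧ Rg d D ρ (mem z.1) p q (f '' S.Nb z.2)

/-- adjacent regular crossings -/
def Ad (z z' : H × E) : Prop :=
  S.Reg d mem f D ρ z ∧ S.Reg d mem f D ρ z' ∧ z.1 = z'.1 ∧ ∃ σ, S.B σ z.2 ≠ 0 ∧ S.B σ z'.2 ≠ 0

variable {d mem f D ρ S}

theorem Ad.symm {z z' : H × E} (h : S.Ad d mem f D ρ z z') : S.Ad d mem f D ρ z' z :=
  ⟨h.2.1, h.1, h.2.2.1.symm, h.2.2.2.imp fun _ h => h.symm⟩

theorem Reg.cr {z : H × E} (h : S.Reg d mem f D ρ z) : S.Cr mem f z := by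
  obtain ⟨p, q, ⟨rfl, rfl⟩ | ⟨rfl, rfl⟩, a, b, -⟩ := h
  exacts [fun e => b (e.1 a), fun e => b (e.2 a)]

theorem fst_of_Bl {k : ℕ} {z y : H × E} (h : y ∈ Bl (S.Ad d mem f D ρ) k z) : y.1 = z.1 :=
  Bl_ind (p := fun y => y.1 = z.1) rfl (fun _ _ a b => b.2.2.1 ▸ a) h

theorem eq_of_Bl {k : ℕ} {z y : H × E} (n : ¬S.Reg d mem f D ρ z)
    (h : y ∈ Bl (S.Ad d mem f D ρ) k z) : y = z :=
  Bl_ind (p := fun y => y = z) rfl (fun _ _ a b => (n (a ▸ b.1)).elim) h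

theorem reg_of_Bl {k : ℕ} {z y : H × E} (n : S.Reg d mem f D ρ z)
    (h : y ∈ Bl (S.Ad d mem f D ρ) k z) : S.Reg d mem f D ρ y :=
  Bl_ind (p := S.Reg d mem f D ρ) n (fun _ _ _ b => b.2.1) h

theorem near (hd : HG d δ N) {z : H × E} {p0 q0 m : P} {r K : ℕ} (e0 : S.En f z.2 p0 q0)
    (a0 : mem z.1 p0) (b0 : ¬mem z.1 q0) (m0 : d p0 m + d m q0 = d p0 q0) (m1 : Cl d (mem z.1) r m)
    (m2 : Cl d (fun x => ¬mem z.1 x) r m) (hρ : r + D + 2 * K + δ < ρ) (k : ℕ) (hk : 2 * δ * k ≤ K) :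
    ∀ y ∈ Bl (S.Ad d mem f D ρ) k z, ∀ p q, S.En f y.2 p q → mem z.1 p → ¬mem z.1 q →
      d p m + d m q ≤ d p q + 2 * δ * k := by
  induction k with
  | zero =>
    rintro y rfl p q e a b
    rcases e with ⟨rfl, rfl⟩ | ⟨rfl, rfl⟩ <;> rcases e0 with ⟨rfl, rfl⟩ | ⟨rfl, rfl⟩ <;>
      first | exact (b a0).elim | omega
  | succ k ih =>
    rw [mul_add, mul_one] at hk ⊢
    rintro y (hy | ⟨x, hx, ⟨p', q', e', a', b', c'⟩, -, -, σ, s1, s2⟩) p q e a b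
    · have := ih (by omega) y hy p q e a b
      omega
    · rw [fst_of_Bl hx] at a' b' c'
      have hp : p ∈ f '' S.Nb x.2 ∧ q ∈ f '' S.Nb x.2 := by
        have h1 : S.src y.2 ∈ S.Nb x.2 := Or.inr (Or.inr ⟨σ, _, s1, s2, Or.inl rfl⟩)
        have h2 : S.tgt y.2 ∈ S.Nb x.2 := Or.inr (Or.inr ⟨σ, _, s1, s2, Or.inr rfl⟩)
        rcases e with ⟨rfl, rfl⟩ | ⟨rfl, rfl⟩
        exacts [⟨⟨_, h1, rfl⟩, _, h2, rfl⟩, ⟨⟨_, h2, rfl⟩, _, h1, rfl⟩]
      exact hd.step c' hp.1 hp.2 a b m1 m2 (ih (by omega) x hx p' q' e' a' b') (by omega)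

variable [MulAction J P] [MulAction J H] (hA : Act J d mem) (hf : ∀ (g : J) x, f (g • x) = g • f x)
include hA

theorem cl_smul (g : J) {s s' : P → Prop} (h : ∀ x, s x → s' (g • x)) {r : ℕ} {x : P}
    (c : Cl d s r x) : Cl d s' r (g • x) :=
  c.elim fun w c => ⟨g • w, h _ c.1, by rw [hA.iso]; exact c.2⟩

include hf

theorem En.smul (g : J) {e : E} {p q : P} (h : S.En f e p q) : S.En f (g • e) (g • p) (g • q) := by
  have _ := hA
  unfold En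
  rw [S.src_smul, S.tgt_smul, hf, hf]
  exact h.imp (fun h => ⟨congrArg _ h.1, congrArg _ h.2⟩) fun h => ⟨congrArg _ h.1, congrArg _ h.2⟩

theorem cr_smul (g : J) (z : H × E) : S.Cr mem f (g • z) ↔ S.Cr mem f z := by
  simp only [Cr, Prod.smul_fst, Prod.smul_snd, S.src_smul, S.tgt_smul, hf, hA.mem]

theorem Reg.smul (g : J) {z : H × E} (h : S.Reg d mem f D ρ z) : S.Reg d mem f D ρ (g • z) := by
  obtain ⟨p, q, e, a, b, c⟩ := h
  have i : ∀ x, mem (g • z.1) x ↔ mem z.1 (g⁻¹ • x) := fun x => by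
    rw [← hA.mem g z.1, smul_inv_smul]
  have hy : ∀ y ∈ f '' S.Nb (g • z.2), ∃ y' ∈ f '' S.Nb z.2, y = g • y' := by
    rintro _ ⟨x, hx, rfl⟩
    exact ⟨f (g⁻¹ • x), ⟨_, by simpa using S.Nb_smul g⁻¹ hx, rfl⟩, by rw [hf, smul_inv_smul]⟩
  refine ⟨g • p, g • q, e.smul hA hf g, (hA.mem _ _ _).2 a, fun n => b ((hA.mem _ _ _).1 n),
    fun a' b' h1 h2 => ?_, fun y h1 h2 => ?_, fun y h1 h2 => ?_⟩
  · rw [hA.iso]
    refine c.nr a' b' ?_ ?_
    · simpa using cl_smul hA g⁻¹ (s' := fun x => ¬mem z.1 x) (fun x n k => n ((i x).2 k)) h1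
    · simpa using cl_smul hA g⁻¹ (s' := mem z.1) (fun x k => (i x).1 k) h2
  · obtain ⟨y, h3, rfl⟩ := hy y h1
    obtain ⟨t, t1, t2⟩ := c.fq y h3 fun k => h2 ((hA.mem _ _ _).2 k)
    exact ⟨t, cl_smul hA g (fun x n k => n ((hA.mem _ _ _).1 k)) t1, by simpa [hA.iso] using t2⟩
  · obtain ⟨y, h3, rfl⟩ := hy y h1
    obtain ⟨t, t1, t2⟩ := c.fp y h3 ((hA.mem _ _ _).1 h2)
    exact ⟨t, cl_smul hA g (fun x k => (hA.mem _ _ _).2 k) t1, by simpa [hA.iso] using t2⟩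

theorem Ad.smul (g : J) {z z' : H × E} (h : S.Ad d mem f D ρ z z') :
    S.Ad d mem f D ρ (g • z) (g • z') := by
  obtain ⟨a, b, c, σ, s1, s2⟩ := h
  exact ⟨a.smul hA hf g, b.smul hA hf g, congrArg (g • ·) c, g • σ,
    by rwa [Prod.smul_snd, S.B_smul], by rwa [Prod.smul_snd, S.B_smul]⟩

/-- the translates of a regular crossing inside a ball of its leaf -/
theorem orb_card (hd : HG d δ N) (hw : Wls d mem) {z : H × E} (hz : S.Reg d mem f D ρ z) {k : ℕ}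
    (hρ : 2 * D + 6 * δ * k + 4 * δ + 5 < ρ) :
    {g : J | g • z ∈ Bl (S.Ad d mem f D ρ) k z}.Finite ∧
      {g : J | g • z ∈ Bl (S.Ad d mem f D ρ) k z}.ncard ≤
        (2 * (D + 2 * δ * k + 3 * δ + 4) + 2) * N (3 * δ + 1) := by
  obtain ⟨p, q, e, a, b, c⟩ := hz
  obtain ⟨τ, hτ⟩ := hd.gm.geo p q
  obtain ⟨t, t1, t2, t3⟩ := cross (s := mem z.1) (τ := τ) (L := d p q) (by rwa [hτ.zero])
    (by rwa [hτ.last])
  obtain ⟨K, hK⟩ : ∃ K, K = 2 * δ * k := ⟨_, rfl⟩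
  have hK' : 6 * δ * k = 3 * K := by rw [hK]; ring
  rw [← hK]
  obtain ⟨r, hr⟩ : ∃ r, r = D + K + 3 * δ + 4 := ⟨_, rfl⟩
  rw [← hr]
  have hp : p ∈ f '' S.Nb z.2 ∧ q ∈ f '' S.Nb z.2 := by
    have h1 : S.src z.2 ∈ S.Nb z.2 := Or.inl rfl
    have h2 : S.tgt z.2 ∈ S.Nb z.2 := Or.inr (Or.inl rfl)
    rcases e with ⟨rfl, rfl⟩ | ⟨rfl, rfl⟩
    exacts [⟨⟨_, h1, rfl⟩, _, h2, rfl⟩, ⟨⟨_, h2, rfl⟩, _, h1, rfl⟩]
  obtain ⟨g1, g2, g3⟩ := hd.geo_pq hτ (i := t) (by omega)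
  obtain ⟨g4, g5, g6⟩ := hd.geo_pq hτ (i := t + 1) (by omega)
  have l1 : r ≤ t ∧ t + 1 + r ≤ d p q := by
    obtain ⟨a', a1, a2⟩ := c.fq q hp.2 b
    obtain ⟨b', b1, b2⟩ := c.fp p hp.1 a
    have := c.nr _ _ a1 ⟨_, t2, g3.le⟩
    have := c.nr _ _ ⟨_, t3, g4.le⟩ b1
    have := hd.gm.self p
    have := hd.gm.self q
    have := hd.gm.comm p q
    omega
  obtain ⟨u1, u2, u3⟩ := hd.geo_pq hτ (i := t - r) (by omega)
  obtain ⟨w1, w2, w3⟩ := hd.geo_pq hτ (i := t + 1 + r) (by omega)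
  have du : ¬Cl d (fun x => ¬mem z.1 x) (K + 3 * δ + 3) (τ (t - r)) := fun n => by
    have := c.nr _ _ (hd.cl_tri n p) ⟨_, t2, g3.le⟩
    omega
  have dw : ¬Cl d (mem z.1) (K + 3 * δ + 3) (τ (t + 1 + r)) := fun n => by
    have := c.nr _ _ ⟨_, t3, g4.le⟩ (hd.cl_tri n q)
    omega
  have dd : ∀ i j, i ≤ j → j ≤ d p q → d (τ j) (τ i) = j - i := fun i j h1 h2 => by
    rw [hd.gm.comm, hτ.dist i j h1 h2]
  have nu := near hd (m := τ (t - r)) (r := r + 1) (K := K) (D := D) (ρ := ρ) e a b (by omega)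
    ⟨_, t2, by rw [hτ.dist _ _ (by omega) (by omega)]; omega⟩
    ⟨_, t3, by rw [hτ.dist _ _ (by omega) (by omega)]; omega⟩ (by omega) k hK.ge
  have nw := near hd (m := τ (t + 1 + r)) (r := r + 1) (K := K) (D := D) (ρ := ρ) e a b (by omega)
    ⟨_, t2, by rw [dd _ _ (by omega) (by omega)]; omega⟩
    ⟨_, t3, by rw [dd _ _ (by omega) (by omega)]; omega⟩ (by omega) k hK.ge
  have key : ∀ g : J, g • z ∈ Bl (S.Ad d mem f D ρ) k z →
      ∃ i ∈ Finset.Icc (t - r) (t + 1 + r), d (τ i) (g • τ t) ≤ 3 * δ + 1 := fun g hg => by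
    have e1 : g • z.1 = z.1 := fst_of_Bl hg
    have i : ∀ x, mem z.1 (g • x) ↔ mem z.1 x := fun x => by rw [← hA.mem g z.1 x, e1]
    have n1 := nu _ hg _ _ (e.smul hA hf g) ((i _).2 a) (mt (i _).1 b)
    have n2 := nw _ hg _ _ (e.smul hA hf g) ((i _).2 a) (mt (i _).1 b)
    rw [← hK] at n1 n2
    have := hd.mid (hw.cv z.1) (hw.cv' z.1) (y := g • τ t) (y' := g • τ (t + 1)) ((i _).2 a)
      (mt (i _).1 b) (by simp only [hA.iso]; omega) ((i _).2 t2) (mt (i _).1 t3)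
      (by rw [hA.iso, hτ.dist _ _ (by omega) (by omega)]; omega) n1 n2 du dw
    rw [hτ.dist _ _ (by omega) (by omega)] at this
    obtain ⟨j, j1, j2, j3⟩ := hd.seg (τ := τ) (by omega)
      (fun a b _ h2 h3 => hτ.dist a b h2 (by omega)) this
    exact ⟨j, Finset.mem_Icc.2 ⟨j1, j2⟩, by rw [hd.gm.comm]; omega⟩
  choose! j hj using key
  have := ncard_fib (Finset.Icc (t - r) (t + 1 + r)) j (M := N (3 * δ + 1))
    (s := {g : J | g • z ∈ Bl (S.Ad d mem f D ρ) k z}) (fun g hg => (hj g hg).1) fun i => ?_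
  · refine ⟨this.1, this.2.trans (Nat.mul_le_mul_right _ ?_)⟩
    rw [Nat.card_Icc]; omega
  have inj : Function.Injective fun g : J => g • τ t := fun g h (e : g • τ t = h • τ t) =>
    (inv_mul_eq_one.1 (hA.free (h⁻¹ * g) (τ t) (by rw [mul_smul, e, inv_smul_smul]))).symm
  have mp : ∀ g ∈ {g : J | g ∈ {g : J | g • z ∈ Bl (S.Ad d mem f D ρ) k z} ∧ j g = i},
      g • τ t ∈ {y | d (τ i) y ≤ 3 * δ + 1} := fun g hg => hg.2 ▸ (hj g hg.1).2
  exact ⟨Set.Finite.of_injOn (fun g hg => mp g hg) inj.injOn (hd.fin _ _),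
    (Set.ncard_le_ncard_of_injOn _ mp inj.injOn (hd.fin _ _)).trans (hd.card _ _)⟩

omit hA hf [MulAction J P] [MulAction J H] in
theorem cr_card (hd : HG d δ N) (hw : Wls d mem) {l : ℕ} (hl : ∀ e, d (f (S.src e)) (f (S.tgt e)) ≤ l)
    (e : E) : {h | S.Cr mem f (h, e)}.Finite ∧ {h | S.Cr mem f (h, e)}.ncard ≤ 2 * l := by
  have h1 : {h | S.Cr mem f (h, e)} ⊆ {h | mem h (f (S.src e)) ∧ ¬mem h (f (S.tgt e))} ∪
      {h | mem h (f (S.tgt e)) ∧ ¬mem h (f (S.src e))} := fun h (a : ¬_) => by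
    simp only [Set.mem_union, Set.mem_ofPred_eq]; tauto
  have h2 := (hw.fin _ _).union (hw.fin (f (S.tgt e)) (f (S.src e))) |>.subset h1
  refine ⟨h2, ((Set.ncard_le_ncard h1 ((hw.fin _ _).union (hw.fin _ _))).trans
    (Set.ncard_union_le _ _)).trans ?_⟩
  rw [hw.card, hw.card, hd.gm.comm (f (S.tgt e))]
  have := hl e
  omega

omit hA hf [MulAction J P] [MulAction J H] in
theorem z0_card (hd : HG d δ N) (hw : Wls d mem) {l : ℕ} (hl : ∀ e, d (f (S.src e)) (f (S.tgt e)) ≤ l)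
    (s : Finset E) : {z | S.Cr mem f z ∧ z.2 ∈ s}.Finite ∧
      {z | S.Cr mem f z ∧ z.2 ∈ s}.ncard ≤ s.card * (2 * l) := by
  refine ncard_fib s Prod.snd (fun _ h => h.2) fun e => ?_
  have := cr_card hd hw hl e
  have mp : ∀ z ∈ {z | z ∈ {z | S.Cr mem f z ∧ z.2 ∈ s} ∧ z.2 = e}, z.1 ∈ {h | S.Cr mem f (h, e)} :=
    fun z hz => hz.2 ▸ hz.1.1
  have inj : Set.InjOn Prod.fst {z | z ∈ {z | S.Cr mem f z ∧ z.2 ∈ s} ∧ z.2 = e} :=
    fun _ a _ b c => Prod.ext c (a.2.trans b.2.symm)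
  exact ⟨Set.Finite.of_injOn (fun g hg => mp g hg) inj this.1,
    (Set.ncard_le_ncard_of_injOn _ mp inj this.1).trans this.2⟩

/-- **linear growth of the leaves** -/
theorem ball_card (hd : HG d δ N) (hw : Wls d mem) {l : ℕ}
    (hl : ∀ e, d (f (S.src e)) (f (S.tgt e)) ≤ l) (σ : Sec J E) {R : ℕ}
    (hρ : 2 * D + 6 * δ * (R + R) + 4 * δ + 5 < ρ) (z : H × E) :
    (Bl (S.Ad d mem f D ρ) R z).Finite ∧ (Bl (S.Ad d mem f D ρ) R z).ncard ≤
      1 + σ.s.card * (2 * l) * ((2 * (D + 2 * δ * (R + R) + 3 * δ + 4) + 2) * N (3 * δ + 1)) := by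
  by_cases hz : S.Reg d mem f D ρ z
  swap
  · have : Bl (S.Ad d mem f D ρ) R z ⊆ {z} := fun y hy => eq_of_Bl hz hy
    exact ⟨(Set.finite_singleton z).subset this,
      (Set.ncard_le_ncard this).trans (by rw [Set.ncard_singleton]; omega)⟩
  have z0 := z0_card hd hw hl σ.s
  have := ncard_fib z0.1.toFinset (fun y : H × E => (σ.c y.2)⁻¹ • y)
    (s := Bl (S.Ad d mem f D ρ) R z)
    (M := (2 * (D + 2 * δ * (R + R) + 3 * δ + 4) + 2) * N (3 * δ + 1)) (fun y hy => ?_) fun ν => ?_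
  · refine ⟨this.1, this.2.trans (le_add_left (Nat.mul_le_mul_right _ ?_))⟩
    rw [← Set.ncard_eq_toFinset_card _ z0.1]; exact z0.2
  · refine z0.1.mem_toFinset.2 ⟨(cr_smul hA hf _ _).2 (reg_of_Bl hz hy).cr, ?_⟩
    rw [Prod.smul_snd, ← σ.r_eq]; exact σ.mem _
  rcases Set.eq_empty_or_nonempty {y | y ∈ Bl (S.Ad d mem f D ρ) R z ∧ (σ.c y.2)⁻¹ • y = ν} with
    e | ⟨y0, h0, e0⟩
  · rw [e]; simp
  have o := orb_card hA hf hd hw (reg_of_Bl hz h0) hρ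
  have sub : {y | y ∈ Bl (S.Ad d mem f D ρ) R z ∧ (σ.c y.2)⁻¹ • y = ν} ⊆
      (fun g : J => g • y0) '' {g : J | g • y0 ∈ Bl (S.Ad d mem f D ρ) (R + R) y0} := by
    rintro y ⟨h1, e1⟩
    have e2 : (σ.c y.2 * (σ.c y0.2)⁻¹) • y0 = y := by rw [mul_smul, e0, ← e1, smul_inv_smul]
    exact ⟨_, by
      rw [Set.mem_ofPred_eq, e2]; exact Bl_trans (Bl_symm (fun _ _ => Ad.symm) h0) h1, e2⟩
  exact ⟨(o.1.image _).subset sub, (Set.ncard_le_ncard sub (o.1.image _)).trans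
    ((Set.ncard_image_le o.1).trans o.2)⟩

omit hA hf [MulAction J P] [MulAction J H] in
/-- few crossings of an edge are singular -/
theorem sing (hd : HG d δ N) (hw : Wls d mem) {l n : ℕ}
    (hl : ∀ e, d (f (S.src e)) (f (S.tgt e)) ≤ l) (hn : ∀ e, (S.Nb e).ncard ≤ n) (D ρ : ℕ) (e : E) :
    {h | S.Cr mem f (h, e) ∧ ¬S.Reg d mem f (D + 2 * δ) ρ (h, e)}.ncard * D ≤
      2 * ((l + 1) * (N (2 * δ + 1) * (2 * (2 * δ + 1))) + n * (2 * (ρ + (D + 2 * δ) + δ + 4)) * D) := by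
  have fY := (S.Nb_fin e).image f
  have cY : fY.toFinset.card ≤ n := by
    rw [← Set.ncard_eq_toFinset_card _ fY]; exact (Set.ncard_image_le (S.Nb_fin e)).trans (hn e)
  have k : ∀ p q, d p q ≤ l → {h | mem h p ∧ ¬mem h q ∧
      ¬Rg d (D + 2 * δ) ρ (mem h) p q (f '' S.Nb e)}.ncard * D ≤
      (l + 1) * (N (2 * δ + 1) * (2 * (2 * δ + 1))) + n * (2 * (ρ + (D + 2 * δ) + δ + 4)) * D :=
    fun p q h => by
      have := hd.sing_card hw D ρ p q fY.toFinset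
      rw [fY.coe_toFinset] at this
      exact this.trans (by gcongr)
  have fi : ∀ p q (r : H → Prop), {h | mem h p ∧ ¬mem h q ∧ r h}.Finite := fun p q r =>
    (hw.fin p q).subset fun h a => ⟨a.1, a.2.1⟩
  have k1 := k _ _ (hl e)
  have k2 := k _ _ (hd.gm.comm _ _ ▸ hl e : d (f (S.tgt e)) (f (S.src e)) ≤ l)
  refine le_trans (Nat.mul_le_mul_right D ((Set.ncard_le_ncard ?_ ((fi _ _ _).union (fi _ _ _))).trans
    (Set.ncard_union_le _ _))) (by rw [add_mul, two_mul]; exact add_le_add k1 k2)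
  rintro h ⟨a, b⟩
  by_cases c : mem h (f (S.src e))
  · have c' : ¬mem h (f (S.tgt e)) := fun n => a ⟨fun _ => n, fun _ => c⟩
    exact Or.inl ⟨c, c', fun r => b ⟨_, _, Or.inl ⟨rfl, rfl⟩, c, c', r⟩⟩
  · have c' : mem h (f (S.tgt e)) := by_contra fun n => a ⟨fun m => (c m).elim, fun m => (n m).elim⟩
    exact Or.inr ⟨c', c, fun r => b ⟨_, _, Or.inr ⟨rfl, rfl⟩, c', c, r⟩⟩

end Src

end Crest.Agent.N233.Fi

end
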