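import Crest.Agent.N233.Fi.Defs

/-!
# Row 233 (helper53): two-cycles of a hyperbolic graph of bounded geometry are filled linearly
-/

set_option autoImplicit false
open Finsupp

noncomputable section

namespace Crest.Agent.N233.Fi.Ln

open Hyp R179.HM998

section ok
variable {A B : Type}

theorem n1_nn (c : A →₀ ℝ) : 0 ≤ n1 c := Finset.sum_nonneg fun _ _ => abs_nonneg _

theorem n1_eq (c : A →₀ ℝ) {s : Finset A} (h : c.support ⊆ s) : n1 c = ∑ a ∈ s, |c a| :=
  Finsupp.sum_of_support_subset _ h _ (by simp)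

theorem n1_add (c c' : A →₀ ℝ) : n1 (c + c') ≤ n1 c + n1 c' := by
  classical
  rw [n1_eq (c + c') Finsupp.support_add, n1_eq c Finset.subset_union_left,
    n1_eq c' Finset.subset_union_right, ← Finset.sum_add_distrib]
  exact Finset.sum_le_sum fun a _ => by rw [Finsupp.add_apply]; exact abs_add_le _ _

theorem n1_smul (t : ℝ) (c : A →₀ ℝ) : n1 (t • c) = |t| * n1 c := by
  rw [n1_eq (t • c) Finsupp.support_smul, n1_eq c subset_rfl, Finset.mul_sum]
  exact Finset.sum_congr rfl fun a _ => by rw [Finsupp.smul_apply, smul_eq_mul, abs_mul]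

theorem n1_single (a : A) (t : ℝ) : n1 (single a t) = |t| := by
  unfold n1
  rw [Finsupp.sum_single_index abs_zero]

/-- support and norm bound -/
def Ok (S : A → Prop) (C : ℝ) (c : A →₀ ℝ) : Prop := (∀ x, c x ≠ 0 → S x) ∧ n1 c ≤ C

variable {S : A → Prop} {C C' : ℝ} {c c' : A →₀ ℝ}

theorem Ok.zero : Ok S 0 (0 : A →₀ ℝ) := ⟨fun _ h => absurd rfl h, by simp [n1]⟩

theorem Ok.add (h : Ok S C c) (h' : Ok S C' c') : Ok S (C + C') (c + c') :=
  ⟨fun x hx => by
    by_cases h0 : c x = 0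
    · exact h'.1 x (by simpa [h0] using hx)
    · exact h.1 x h0, (n1_add _ _).trans (add_le_add h.2 h'.2)⟩

theorem Ok.smul (t : ℝ) (h : Ok S C c) : Ok S (|t| * C) (t • c) :=
  ⟨fun x hx => h.1 x fun h0 => hx (by simp [h0]),
    by rw [n1_smul]; exact mul_le_mul_of_nonneg_left h.2 (abs_nonneg _)⟩

theorem Ok.sub (h : Ok S C c) (h' : Ok S C' c') : Ok S (C + C') (c - c') := by
  have := h.add (h'.smul (-1))
  simpa [sub_eq_add_neg] using this

theorem Ok.single {a : A} (h : S a) : Ok S 1 (single a (1 : ℝ)) := by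
  classical
  refine ⟨fun x hx => ?_, by simp [n1_single]⟩
  rw [Finsupp.single_apply] at hx
  split_ifs at hx with e
  · exact e ▸ h
  · exact absurd rfl hx

theorem Ok.mono {S' : A → Prop} (h : Ok S C c) (hS : ∀ x, S x → S' x) (hC : C ≤ C') : Ok S' C' c :=
  ⟨fun x hx => hS x (h.1 x hx), h.2.trans hC⟩

theorem Ok.sum {I : Type} (s : Finset I) {f : I → A →₀ ℝ} {g : I → ℝ}
    (h : ∀ i ∈ s, Ok S (g i) (f i)) : Ok S (∑ i ∈ s, g i) (∑ i ∈ s, f i) := by
  classical
  induction s using Finset.induction_on with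
  | empty => simpa using Ok.zero
  | insert a s ha ih =>
    rw [Finset.sum_insert ha, Finset.sum_insert ha]
    exact (h a (Finset.mem_insert_self _ _)).add (ih fun i hi => h i (Finset.mem_insert_of_mem hi))

theorem Ok.lin {S' : B → Prop} {f : A → B →₀ ℝ} (hf : ∀ a, S a → Ok S' C (f a))
    (hc : ∀ x, c x ≠ 0 → S x) : Ok S' (C * n1 c) (linearCombination ℝ f c) := by
  rw [linearCombination_apply, Finsupp.sum, n1_eq c subset_rfl, Finset.mul_sum]
  exact Ok.sum _ fun a ha => by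
    rw [mul_comm]; exact (hf a (hc a (mem_support_iff.1 ha))).smul _

end ok

section alg
variable {P : Type}

/-- the cone over two-chains -/
def cn (v : P) : (P × P × P →₀ ℝ) →ₗ[ℝ] (P × P × P × P →₀ ℝ) :=
  linearCombination ℝ fun s => single (v, s) 1

/-- the cone over one-chains -/
def cn1 (v : P) : (P × P →₀ ℝ) →ₗ[ℝ] (P × P × P →₀ ℝ) :=
  linearCombination ℝ fun s => single (v, s) 1

theorem b3_cn (v : P) (z : P × P × P →₀ ℝ) : b3 (cn v z) = z - cn1 v (b2 z) := by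
  induction z using Finsupp.induction_linear with
  | zero => simp
  | add f g hf hg => simp only [map_add, hf, hg]; abel
  | single s t =>
    rw [← Finsupp.smul_single_one]
    simp only [map_smul, ← smul_sub]
    congr 1
    simp only [cn, cn1, b2, b3, linearCombination_single, one_smul, map_add, map_sub]
    abel

theorem b2_b3 (z : P × P × P × P →₀ ℝ) : b2 (b3 z) = 0 := by
  induction z using Finsupp.induction_linear with
  | zero => simp
  | add f g hf hg => simp only [map_add, hf, hg, add_zero]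
  | single s t =>
    rw [← Finsupp.smul_single_one]
    simp only [map_smul, b2, b3, linearCombination_single, one_smul, map_add, map_sub]
    rw [smul_eq_zero]
    right
    abel

/-- the alternating triangle -/
def al (x y z : P) : P × P × P →₀ ℝ := (1 / 6 : ℝ) • (single (x, y, z) 1 + single (y, z, x) 1 +
  single (z, x, y) 1 - single (y, x, z) 1 - single (x, z, y) 1 - single (z, y, x) 1)

theorem al_deg {x y z : P} (h : x = y ∨ x = z ∨ y = z) : al x y z = 0 := by
  unfold al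
  rw [smul_eq_zero]
  right
  rcases h with rfl | rfl | rfl <;> abel

/-- the homotopy on edges -/
def h1 (r : P → P) : (P × P →₀ ℝ) →ₗ[ℝ] (P × P × P →₀ ℝ) := linearCombination ℝ fun e =>
  single (e.1, e.1, e.2) 1 - (1 / 2 : ℝ) • single (e.1, r e.1, r e.2) 1 +
    (1 / 2 : ℝ) • single (e.1, r e.2, r e.1) 1 - single (e.1, r e.2, e.2) 1 +
    single (e.1, r e.1, e.1) 1

/-- the homotopy on triangles -/
def h2 (r : P → P) (s : P × P × P) : P × P × P × P →₀ ℝ :=
  cn s.1 (single s 1 - al (r s.1) (r s.2.1) (r s.2.2) - h1 r (b2 (single s 1)))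

theorem b3_h2 (r : P → P) (s : P × P × P) : b3 (h2 r s) =
    single s 1 - al (r s.1) (r s.2.1) (r s.2.2) - h1 r (b2 (single s 1)) := by
  have : b2 (single s 1 - al (r s.1) (r s.2.1) (r s.2.2) - h1 r (b2 (single s 1))) = 0 := by
    obtain ⟨x, y, z⟩ := s
    simp only [al, h1, b2, linearCombination_single, one_smul, map_add, map_sub, map_smul]
    module
  rw [h2, b3_cn, this, map_zero, sub_zero]

/-- triangles of a relation -/
def Tr (R : P → P → Prop) (s : P × P × P) : Prop := R s.1 s.2.1 ∧ R s.1 s.2.2 ∧ R s.2.1 s.2.2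

theorem ok_al {R : P → P → Prop} (hR : ∀ x y, R x y → R y x) {x y z : P} (h : Tr R (x, y, z)) :
    Ok (Tr R) 1 (al x y z) := by
  obtain ⟨a, b, c⟩ := h
  have a' := hR _ _ a
  have b' := hR _ _ b
  have c' := hR _ _ c
  refine (Ok.smul (1 / 6 : ℝ) ((((((Ok.single (S := Tr R) (a := (x, y, z)) ⟨a, b, c⟩).add
    (Ok.single (a := (y, z, x)) ⟨c, a', b'⟩)).add (Ok.single (a := (z, x, y)) ⟨b', c', a⟩)).sub
    (Ok.single (a := (y, x, z)) ⟨a', c, b⟩)).sub (Ok.single (a := (x, z, y)) ⟨b, a, c'⟩)).sub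
    (Ok.single (a := (z, y, x)) ⟨c', b', a'⟩))).mono (fun _ h => h) ?_
  norm_num

theorem ok_h2 (r : P → P) (U : P → Prop) (s : P × P × P) (h1' : U s.1 ∧ U (r s.1))
    (h2' : U s.2.1 ∧ U (r s.2.1)) (h3 : U s.2.2 ∧ U (r s.2.2)) :
    Ok (fun q => U q.1 ∧ U q.2.1 ∧ U q.2.2.1 ∧ U q.2.2.2) 14 (h2 r s) := by
  let T : P × P × P → Prop := Tr fun x y => U x ∧ U y
  have mk : ∀ {x y z : P}, U x → U y → U z → Ok T 1 (single (x, y, z) (1 : ℝ)) :=
    fun a b c => Ok.single ⟨⟨a, b⟩, ⟨a, c⟩, ⟨b, c⟩⟩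
  let E : P × P → Prop := fun e => (U e.1 ∧ U (r e.1)) ∧ U e.2 ∧ U (r e.2)
  have e1 : Ok E 3 (b2 (single s (1 : ℝ))) := by
    simp only [b2, linearCombination_single, one_smul]
    refine (((Ok.single (S := E) (a := (s.2.1, s.2.2)) ⟨h2', h3⟩).sub
      (Ok.single (a := (s.1, s.2.2)) ⟨h1', h3⟩)).add
      (Ok.single (a := (s.1, s.2.1)) ⟨h1', h2'⟩)).mono (fun _ h => h) (by norm_num)
  have e2 : Ok T 12 (h1 r (b2 (single s (1 : ℝ)))) := by
    refine (Ok.lin (C := 4) (fun e (he : E e) => ?_) e1.1).mono (fun _ h => h) (by linarith [e1.2])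
    obtain ⟨⟨a, a'⟩, b, b'⟩ := he
    refine (((((mk a a b).sub ((mk a a' b').smul (1 / 2))).add ((mk a b' a').smul (1 / 2))).sub
      (mk a b' b)).add (mk a a' a)).mono (fun _ h => h) ?_
    norm_num
  have e3 := ((mk h1'.1 h2'.1 h3.1).sub (ok_al (R := fun x y => U x ∧ U y) (fun _ _ h => h.symm)
    (x := r s.1) (y := r s.2.1) (z := r s.2.2)
    ⟨⟨h1'.2, h2'.2⟩, ⟨h1'.2, h3.2⟩, ⟨h2'.2, h3.2⟩⟩)).sub e2
  refine (Ok.lin (C := 1) (fun t (ht : T t) => Ok.single ?_) e3.1).mono (fun _ h => h) ?_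
  · exact ⟨h1'.1, ht.1.1, ht.1.2, ht.2.1.2⟩
  · have := e3.2
    linarith

/-- one step of the random retraction -/
theorem step {Ω : Type} [Fintype Ω] [Nonempty Ω] (r : Ω → P → P) {K : P × P × P → Prop}
    {R : P → P → Prop} (hR : ∀ x y, R x y → R y x) {G : P × P × P × P → Prop}
    (hK : ∀ s, K s → ∀ w, Tr R (r w s.1, r w s.2.1, r w s.2.2))
    (hG : ∀ s, K s → ∀ w, Ok G 14 (h2 (r w) s))
    (hd : ∀ s, K s → ∃ w, r w s.1 = r w s.2.1 ∨ r w s.1 = r w s.2.2 ∨ r w s.2.1 = r w s.2.2)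
    (c : P × P × P →₀ ℝ) (hc : ∀ x, c x ≠ 0 → K x) (h0 : b2 c = 0) :
    ∃ c' b, Ok (Tr R) ((1 - 1 / (Fintype.card Ω : ℝ)) * n1 c) c' ∧ Ok G (14 * n1 c) b ∧
      c = c' + b3 b := by
  classical
  obtain ⟨m, hm⟩ : ∃ m : ℝ, m = (Fintype.card Ω : ℝ) := ⟨_, rfl⟩
  rw [← hm]
  have m0 : 0 < m := by rw [hm]; exact_mod_cast Fintype.card_pos
  have hab : |1 / m| = 1 / m := abs_of_pos (by positivity)
  let φ : P × P × P → P × P × P →₀ ℝ := fun s =>
    (1 / m) • ∑ w, al (r w s.1) (r w s.2.1) (r w s.2.2)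
  let H : P × P × P → P × P × P × P →₀ ℝ := fun s => (1 / m) • ∑ w, h2 (r w) s
  have key : ∀ z : P × P × P →₀ ℝ, z = linearCombination ℝ φ z + b3 (linearCombination ℝ H z) +
      (1 / m) • ∑ w, h1 (r w) (b2 z) := fun z => by
    induction z using Finsupp.induction_linear with
    | zero => simp
    | add f g hf hg =>
      simp only [map_add, Finset.sum_add_distrib, smul_add]
      conv_lhs => rw [hf, hg]
      abel
    | single s t =>
      rw [← Finsupp.smul_single_one]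
      simp only [map_smul, ← Finset.smul_sum, smul_comm (1 / m) t, ← smul_add]
      congr 1
      simp only [linearCombination_single, one_smul, φ, H, map_smul, map_sum, b3_h2, ← smul_add,
        ← Finset.sum_add_distrib]
      rw [Finset.sum_congr rfl (g := fun _ => single s (1 : ℝ)) fun w _ => by abel,
        Finset.sum_const, Finset.card_univ, ← Nat.cast_smul_eq_nsmul ℝ, ← hm, smul_smul,
        one_div_mul_cancel m0.ne', one_smul]
  refine ⟨linearCombination ℝ φ c, linearCombination ℝ H c, Ok.lin (fun s hs => ?_) hc,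
    Ok.lin (fun s hs => ?_) hc, ?_⟩
  · obtain ⟨w0, hw⟩ := hd s hs
    have := (Ok.sum (S := Tr R) Finset.univ (g := fun w => if w = w0 then (0 : ℝ) else 1)
      (f := fun w => al (r w s.1) (r w s.2.1) (r w s.2.2)) fun w _ => by
        split_ifs with e
        · rw [e, al_deg hw]; exact Ok.zero
        · exact ok_al hR (hK s hs w)).smul (1 / m)
    refine this.mono (fun _ h => h) (le_of_eq ?_)
    have e : ∑ w : Ω, (if w = w0 then (0 : ℝ) else 1) = m - 1 := by
      rw [Finset.sum_congr rfl (g := fun w => (1 : ℝ) - if w = w0 then 1 else 0)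
        fun w _ => by split_ifs <;> simp, Finset.sum_sub_distrib]
      simp [hm]
    rw [e, hab]
    field_simp
  · have := (Ok.sum (S := G) Finset.univ (g := fun _ => (14 : ℝ))
      (f := fun w => h2 (r w) s) fun w _ => hG s hs w).smul (1 / m)
    refine this.mono (fun _ h => h) (le_of_eq ?_)
    rw [hab, Finset.sum_const, Finset.card_univ, nsmul_eq_mul, ← hm]
    field_simp
  · have := key c
    rw [h0] at this
    simpa using this

/-- the iteration -/
theorem iter {K : ℕ → P × P × P → Prop} {G : P × P × P × P → Prop} {m : ℝ} (hm : 1 ≤ m)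
    (h0 : ∀ c : P × P × P →₀ ℝ, (∀ x, c x ≠ 0 → K 0 x) → b2 c = 0 → c = 0)
    (hs : ∀ n (c : P × P × P →₀ ℝ), (∀ x, c x ≠ 0 → K (n + 1) x) → b2 c = 0 →
      ∃ c' b, Ok (K n) ((1 - 1 / m) * n1 c) c' ∧ Ok G (14 * n1 c) b ∧ c = c' + b3 b) (n : ℕ) :
    ∀ c : P × P × P →₀ ℝ, (∀ x, c x ≠ 0 → K n x) → b2 c = 0 →
      ∃ b, Ok G (14 * m * n1 c) b ∧ b3 b = c := by
  induction n with
  | zero =>
    intro c hc hb
    rw [h0 c hc hb]
    exact ⟨0, Ok.zero.mono (fun _ h => h) (by simp [n1]), map_zero _⟩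
  | succ n ih =>
    intro c hc hb
    obtain ⟨c', b, o1, o2, e⟩ := hs n c hc hb
    obtain ⟨b', o3, e'⟩ := ih c' o1.1 (by
      have := congrArg b2 e
      rwa [hb, map_add, b2_b3, add_zero, eq_comm] at this)
    refine ⟨b' + b, (o3.add o2).mono (fun _ h => h) ?_, by rw [map_add, e', ← e]⟩
    have m0 : 0 < m := by linarith
    have := mul_le_mul_of_nonneg_left o1.2 (show 0 ≤ 14 * m by positivity)
    have e2 : 14 * m * ((1 - 1 / m) * n1 c) = 14 * m * n1 c - 14 * n1 c := by field_simp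
    linarith

end alg

section geo
variable {P : Type} {d : P → P → ℕ} {δ : ℕ} {N : ℕ → ℕ}

theorem colour (h : HG d δ N) (R : ℕ) (s : Finset P) : ∃ κ : P → Fin (N R + 1),
    ∀ p ∈ s, ∀ q ∈ s, d p q ≤ R → κ p = κ q → p = q := by
  classical
  induction s using Finset.induction_on with
  | empty => exact ⟨fun _ => 0, by simp⟩
  | insert a s ha ih =>
    obtain ⟨κ, hκ⟩ := ih
    obtain ⟨k, hk⟩ : ∃ k, k ∉ (h.fin a R).toFinset.image κ := by
      by_contra hc
      push Not at hc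
      have h1 := Finset.card_le_card (show Finset.univ ⊆ _ from fun k _ => hc k)
      have h2 := Finset.card_image_le (s := (h.fin a R).toFinset) (f := κ)
      have h3 := h.card a R
      rw [Set.ncard_eq_toFinset_card _ (h.fin a R)] at h3
      rw [Finset.card_univ, Fintype.card_fin] at h1
      omega
    have hn : ∀ q, d a q ≤ R → κ q ≠ k := fun q hq e =>
      hk (Finset.mem_image.2 ⟨q, (h.fin a R).mem_toFinset.2 hq, e⟩)
    refine ⟨Function.update κ a k, fun p hp q hq hd e => ?_⟩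
    by_cases e1 : p = a <;> by_cases e2 : q = a
    · rw [e1, e2]
    · rw [e1, Function.update_self, Function.update_of_ne e2] at e
      exact absurd e.symm (hn q (e1 ▸ hd))
    · rw [e2, Function.update_self, Function.update_of_ne e1] at e
      exact absurd e (hn p (by rw [h.gm.comm]; exact e2 ▸ hd))
    · rw [Function.update_of_ne e1, Function.update_of_ne e2] at e
      exact hκ p ((Finset.mem_insert.1 hp).resolve_left e1) q
        ((Finset.mem_insert.1 hq).resolve_left e2) hd e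

theorem colour' (h : HG d δ N) (R : ℕ) (o : P) : ∃ κ : P → Fin (N R + 1),
    ∀ p q, d o p = d o q → d p q ≤ R → κ p = κ q → p = q := by
  choose κ hκ using fun a : ℕ => colour h R (h.fin o a).toFinset
  refine ⟨fun p => κ (d o p) p, fun p q e hd hk => hκ (d o p) p ?_ q ?_ hd ?_⟩
  · exact (h.fin o _).mem_toFinset.2 (le_refl (d o p))
  · exact (h.fin o _).mem_toFinset.2 e.ge
  · exact hk.trans (by simp only [e])

theorem lev_geo {o x : P} {τ : ℕ → P} (hτ : IsGeo d τ o x) {t : ℕ} (ht : t ≤ d o x) :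
    d o (τ t) = t ∧ d (τ t) x = d o x - t := by
  have h1 := hτ.dist 0 t (Nat.zero_le _) ht
  have h2 := hτ.dist t _ ht le_rfl
  rw [hτ.zero] at h1
  rw [hτ.last] at h2
  exact ⟨h1, h2⟩

theorem thin (h : HG d δ N) {o x y : P} {τ τ' : ℕ → P} (hτ : IsGeo d τ o x) (hτ' : IsGeo d τ' o y)
    {t : ℕ} (hx : t ≤ d o x) (hy : t ≤ d o y) (hg : 2 * t + d x y ≤ d o x + d o y) :
    d (τ t) (τ' t) ≤ 2 * δ := by
  obtain ⟨a1, a2⟩ := lev_geo hτ hx
  obtain ⟨c1, c2⟩ := lev_geo hτ' hy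
  rw [h.gm.comm] at c2
  have a3 : (d (τ t) x : ℝ) = d o x - t := by rw [a2, Nat.cast_sub hx]
  have c3 : (d y (τ' t) : ℝ) = d o y - t := by rw [c2, Nat.cast_sub hy]
  have hg' : (2 * t + d x y : ℝ) ≤ d o x + d o y := by exact_mod_cast hg
  have e1 := h.fp.le (w := o) (x := τ t) (z := y) x (t := 2 * t)
    (by simp only [gp, a1, a3]; linarith) (by simp only [gp]; linarith)
  have e2 := h.fp.le (w := o) (x := τ t) (z := τ' t) y (t := 2 * t - δ) e1
    (by simp only [gp, c1, c3]; have : (0 : ℝ) ≤ δ := δ.cast_nonneg; linarith)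
  simp only [gp, a1, c1] at e2
  have : (d (τ t) (τ' t) : ℝ) ≤ 2 * δ := by linarith
  exact_mod_cast this

/-- the rounded level -/
def ph (D L w t : ℕ) : ℕ := D * ((t + w) / D) - L

theorem ph_le {D L w : ℕ} (t : ℕ) (hw : w < D) : ph D L w t ≤ t + D - L := by
  have := Nat.mul_div_le (t + w) D
  unfold ph
  omega

theorem le_ph {D L w : ℕ} (t : ℕ) (hw : w < D) : t ≤ ph D L w t + L + D := by
  have h1 := Nat.div_add_mod (t + w) D
  have h2 := Nat.mod_lt (t + w) (show 0 < D by omega)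
  unfold ph
  omega

theorem ph_lip {D L w t t' : ℕ} (hw : w < D) (h : t ≤ t' + D) : ph D L w t ≤ ph D L w t' + D := by
  have h1 : (t + w) / D ≤ (t' + w) / D + 1 := by
    rw [← Nat.add_div_right _ (show 0 < D by omega)]
    exact Nat.div_le_div_right (by omega)
  have h2 := Nat.mul_le_mul_left D h1
  rw [mul_add, mul_one] at h2
  unfold ph
  omega

theorem ph_eq {D t t' : ℕ} (L : ℕ) (h : t ≤ t') (h' : t' < t + D) :
    ∃ w, w < D ∧ ph D L w t = ph D L w t' := by
  have hD : 0 < D := by omega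
  obtain ⟨k, w, hw, e⟩ : ∃ k w, w < D ∧ t + w = D * k := by
    have h1 := Nat.div_add_mod (t + D - 1) D
    have h2 := Nat.mod_lt (t + D - 1) hD
    exact ⟨(t + D - 1) / D, D - 1 - (t + D - 1) % D, by omega, by omega⟩
  refine ⟨w, hw, ?_⟩
  unfold ph
  rw [e, Nat.mul_div_cancel_left _ hD, show t' + w = D * k + (t' - t) by omega,
    Nat.mul_add_div hD, Nat.div_eq_of_lt (show t' - t < D by omega), add_zero]

/-- the pairs that are preserved -/
def Rl (d : P → P → ℕ) (o : P) (D E n : ℕ) (x y : P) : Prop :=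
  d o x ≤ n ∧ d o y ≤ n ∧ d o x ≤ d o y + D ∧ d o y ≤ d o x + D ∧ d x y ≤ E

theorem exists_r (h : HG d δ N) (o : P) (D : ℕ) :
    ∃ r : Fin D × Fin (N (4 * δ) + 1) → P → P,
      (∀ w x, d x (r w x) ≤ 3 * D + 8 * δ + 1) ∧
      (∀ w n x y, Rl d o D (D + 6 * δ) (n + 1) x y → Rl d o D (D + 6 * δ) n (r w x) (r w y)) ∧
      ∀ x y, d x y ≤ D + 6 * δ → d o x ≤ d o y → d o y < d o x + D → ∃ w, r w x = r w y := by
  classical
  obtain ⟨κ, hκ⟩ := colour' h (4 * δ) o
  choose ga hga using h.gm.geo o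
  set L := 2 * D + 6 * δ + 1 with hL
  let Cd : ℕ → Fin (N (4 * δ) + 1) → P → P → Prop := fun a k x p =>
    d o p = a ∧ d (ga x a) p ≤ 2 * δ ∧ κ p = k
  let r : Fin D × Fin (N (4 * δ) + 1) → P → P := fun w x =>
    if hp : ∃ p, Cd (ph D L w.1 (d o x)) w.2 x p then hp.choose else ga x (ph D L w.1 (d o x))
  have hle : ∀ (w : Fin D) x, ph D L w (d o x) ≤ d o x := fun w x => by
    have := ph_le (L := L) (d o x) w.2
    omega
  have hr : ∀ w x, d o (r w x) = ph D L w.1 (d o x) ∧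
      d (ga x (ph D L w.1 (d o x))) (r w x) ≤ 2 * δ := fun w x => by
    simp only [r]
    split_ifs with hp
    · exact ⟨hp.choose_spec.1, hp.choose_spec.2.1⟩
    · exact ⟨(lev_geo (hga x) (hle _ _)).1, by rw [h.gm.self]; exact Nat.zero_le _⟩
  have hr' : ∀ w x p, Cd (ph D L w.1 (d o x)) w.2 x p → r w x = p := fun w x p hp => by
    have he : ∃ p, Cd (ph D L w.1 (d o x)) w.2 x p := ⟨p, hp⟩
    have hs := he.choose_spec
    simp only [r, dif_pos he]
    refine hκ _ _ (hs.1.trans hp.1.symm) ?_ (hs.2.2.trans hp.2.2.symm)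
    have h1 := h.gm.tri he.choose (ga x (ph D L w.1 (d o x))) p
    have h2 := hs.2.1
    have h3 := hp.2.1
    rw [h.gm.comm] at h2
    omega
  have hth : ∀ (w : Fin D) x y, d x y ≤ D + 6 * δ → ph D L w (d o x) ≤ ph D L w (d o y) →
      d (ga x (ph D L w (d o x))) (ga y (ph D L w (d o x))) ≤ 2 * δ := fun w x y hd hxy => by
    refine thin h (hga x) (hga y) (hle _ _) (hxy.trans (hle _ _)) ?_
    have h1 := ph_le (L := L) (d o x) w.2
    have h2 := ph_le (L := L) (d o y) w.2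
    have h3 := h.gm.tri x o y
    rw [h.gm.comm x o] at h3
    omega
  have hds : ∀ w x y, d x y ≤ D + 6 * δ → ph D L w.1 (d o x) ≤ ph D L w.1 (d o y) →
      ph D L w.1 (d o y) ≤ ph D L w.1 (d o x) + D → d (r w x) (r w y) ≤ D + 6 * δ :=
    fun w x y hd h1 h2 => by
      have a1 := hth w.1 x y hd h1
      have a2 := (hr w x).2
      have a3 := (hr w y).2
      have a4 := (hga y).dist _ _ h1 (hle _ _)
      have a5 := h.gm.tri (r w x) (ga x (ph D L w.1 (d o x))) (r w y)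
      have a6 := h.gm.tri (ga x (ph D L w.1 (d o x))) (ga y (ph D L w.1 (d o x))) (r w y)
      have a7 := h.gm.tri (ga y (ph D L w.1 (d o x))) (ga y (ph D L w.1 (d o y))) (r w y)
      rw [h.gm.comm] at a2
      omega
  refine ⟨r, fun w x => ?_, fun w n x y ⟨a1, a2, a3, a4, a5⟩ => ?_, fun x y hd h1 h2 => ?_⟩
  · have a1 := (hr w x).2
    have a2 := (lev_geo (hga x) (hle w.1 x)).2
    have a3 := le_ph (L := L) (d o x) w.1.2
    have a4 := h.gm.tri x (ga x (ph D L w.1 (d o x))) (r w x)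
    rw [h.gm.comm] at a2
    omega
  · have b1 := ph_le (L := L) (d o x) w.1.2
    have b2 := ph_le (L := L) (d o y) w.1.2
    have b3 := ph_lip (L := L) w.1.2 a3
    have b4 := ph_lip (L := L) w.1.2 a4
    refine ⟨by rw [(hr w x).1]; omega, by rw [(hr w y).1]; omega,
      by rw [(hr w x).1, (hr w y).1]; exact b3, by rw [(hr w x).1, (hr w y).1]; exact b4, ?_⟩
    rcases le_total (ph D L w.1 (d o x)) (ph D L w.1 (d o y)) with e | e
    · exact hds w x y a5 e b4
    · rw [h.gm.comm]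
      exact hds w y x (by rw [h.gm.comm]; exact a5) e b3
  · obtain ⟨w, hw, e⟩ := ph_eq L h1 h2
    have a1 := hth ⟨w, hw⟩ x y hd e.le
    have a2 := (lev_geo (hga y) (hle ⟨w, hw⟩ y)).1
    refine ⟨(⟨w, hw⟩, κ (ga y (ph D L w (d o y)))), (hr' _ x (ga y (ph D L w (d o y))) ?_).trans
      (hr' _ y (ga y (ph D L w (d o y))) ⟨a2, ?_, rfl⟩).symm⟩
    · exact ⟨a2.trans e.symm, by rw [← e]; exact a1, rfl⟩
    · rw [h.gm.self]; exact Nat.zero_le _

end geo

/-- block A -/
theorem linS : LinS := by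
  intro P d δ N h D0
  classical
  rcases isEmpty_or_nonempty P with hP | ⟨⟨o⟩⟩
  · exact ⟨0, 0, fun c _ _ => ⟨0, fun _ hx => absurd rfl hx, Subsingleton.elim _ _, by simp [n1]⟩⟩
  set D := 2 * D0 + 1 with hD
  obtain ⟨r, r1, r2, r3⟩ := exists_r h o D
  haveI : Nonempty (Fin D) := ⟨⟨0, by omega⟩⟩
  set M := 4 * D + 14 * δ + 1 with hM
  have hm : (1 : ℝ) ≤ Fintype.card (Fin D × Fin (N (4 * δ) + 1)) := by
    exact_mod_cast Fintype.card_pos
  have sy : ∀ n x y, Rl d o D (D + 6 * δ) n x y → Rl d o D (D + 6 * δ) n y x :=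
    fun n x y ⟨a1, a2, a3, a4, a5⟩ => ⟨a2, a1, a4, a3, by rw [h.gm.comm]; exact a5⟩
  have it := iter (K := fun n => Tr (Rl d o D (D + 6 * δ) n)) (G := Dm3 d (2 * M)) hm
    (fun c hc hb => ?_) fun n c hc hb => step r (sy n)
      (fun s hs w => ⟨r2 w n _ _ hs.1, r2 w n _ _ hs.2.1, r2 w n _ _ hs.2.2⟩) (fun s hs w => ?_)
      (fun s hs => ?_) c hc hb
  · refine ⟨2 * M, 14 * Fintype.card (Fin D × Fin (N (4 * δ) + 1)), fun c hc hb => ?_⟩
    suffices hK : ∀ s, c s ≠ 0 →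
        Tr (Rl d o D (D + 6 * δ) (c.support.sup fun s => d o s.1 + D0)) s by
      obtain ⟨b, o1, e⟩ := it _ c hK hb
      exact ⟨b, o1.1, e, o1.2⟩
    intro s hs
    have a0 := Finset.le_sup (f := fun s : P × P × P => d o s.1 + D0) (mem_support_iff.2 hs)
    obtain ⟨a1, a2⟩ := hc s hs
    have t1 := h.gm.tri o s.1 s.2.1
    have t2 := h.gm.tri o s.1 s.2.2
    have t3 := h.gm.tri o s.2.1 s.1
    have t4 := h.gm.tri o s.2.2 s.1
    have t5 := h.gm.tri s.2.1 s.1 s.2.2
    have t6 := h.gm.comm s.2.1 s.1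
    have t7 := h.gm.comm s.2.2 s.1
    refine ⟨⟨?_, ?_, ?_, ?_, ?_⟩, ⟨?_, ?_, ?_, ?_, ?_⟩, ⟨?_, ?_, ?_, ?_, ?_⟩⟩ <;> omega
  · have e : c = single (o, o, o) (c (o, o, o)) := by
      ext x
      by_cases hx : x = (o, o, o)
      · rw [hx, single_eq_same]
      · rw [single_eq_of_ne hx]
        by_contra hc'
        obtain ⟨⟨a1, a2, -⟩, ⟨-, a3, -⟩, -⟩ := hc x hc'
        exact hx (Prod.ext (h.sep o x.1 (by omega)).symm (Prod.ext (h.sep o x.2.1 (by omega)).symm
          (h.sep o x.2.2 (by omega)).symm))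
    rw [e] at hb ⊢
    have := DFunLike.congr_fun hb (o, o)
    simp only [b2, linearCombination_single, sub_self, zero_add, smul_single, smul_eq_mul, mul_one,
      single_eq_same, Finsupp.zero_apply] at this
    rw [this, single_zero]
  · have hu : ∀ y, d s.1 y ≤ D + 6 * δ → d s.1 y ≤ M ∧ d s.1 (r w y) ≤ M := fun y hy => by
      have a1 := r1 w y
      have a2 := h.gm.tri s.1 y (r w y)
      omega
    refine (ok_h2 (r w) (fun y => d s.1 y ≤ M) s (hu _ (by rw [h.gm.self]; omega))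
      (hu _ hs.1.2.2.2.2) (hu _ hs.2.1.2.2.2.2)).mono (fun q ⟨a1, a2, a3, a4⟩ => ?_) le_rfl
    have t1 := h.gm.tri q.1 s.1 q.2.1
    have t2 := h.gm.tri q.1 s.1 q.2.2.1
    have t3 := h.gm.tri q.1 s.1 q.2.2.2
    rw [h.gm.comm _ s.1] at t1 t2 t3
    exact ⟨by omega, by omega, by omega⟩
  · have r4 : ∀ x y, d x y ≤ D + 6 * δ → d o x < d o y + D → d o y < d o x + D →
        ∃ w, r w x = r w y := fun x y a1 a2 a3 => by
      rcases le_total (d o x) (d o y) with e | e
      · exact r3 x y a1 e a3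
      · obtain ⟨w, hw⟩ := r3 y x (by rw [h.gm.comm]; exact a1) e a2
        exact ⟨w, hw.symm⟩
    obtain ⟨⟨-, -, a1, a2, a3⟩, ⟨-, -, a4, a5, a6⟩, ⟨-, -, a7, a8, a9⟩⟩ := hs
    by_cases c1 : d o s.1 < d o s.2.1 + D ∧ d o s.2.1 < d o s.1 + D
    · obtain ⟨w, hw⟩ := r4 _ _ a3 c1.1 c1.2
      exact ⟨w, Or.inl hw⟩
    by_cases c2 : d o s.1 < d o s.2.2 + D ∧ d o s.2.2 < d o s.1 + D
    · obtain ⟨w, hw⟩ := r4 _ _ a6 c2.1 c2.2
      exact ⟨w, Or.inr (Or.inl hw)⟩
    obtain ⟨w, hw⟩ := r4 _ _ a9 (by omega) (by omega)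
    exact ⟨w, Or.inr (Or.inr hw)⟩

end Crest.Agent.N233.Fi.Ln

end
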