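import Crest.Agent.N233.Fi.Lf

/-!
# Row 233 (helper69): the corrected indicator functions have small total variation
-/

set_option autoImplicit false

noncomputable section

namespace Crest.Agent.N233.Fi

open Finset

theorem sum_inj {α β γ : Type} (u : Finset α) (j : α → β × γ) (hj : Set.InjOn j u) (t : Finset β)
    (h : ∀ a ∈ u, (j a).1 ∈ t) (F : β → γ → ℝ) (hF : ∀ b c, 0 ≤ F b c) (K : β → ℝ)
    (hK : ∀ b ∈ t, ∀ s : Finset γ, ∑ c ∈ s, F b c ≤ K b) :
    ∑ a ∈ u, F (j a).1 (j a).2 ≤ ∑ b ∈ t, K b := by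
  classical
  rw [← sum_image (f := fun p : β × γ => F p.1 p.2) hj]
  refine (sum_le_sum_of_subset_of_nonneg (t := t ×ˢ u.image fun a => (j a).2) (fun p hp => ?_)
    fun _ _ _ => hF _ _).trans ?_
  · obtain ⟨a, ha, rfl⟩ := mem_image.1 hp
    exact mem_product.2 ⟨h a ha, mem_image_of_mem _ ha⟩
  · rw [sum_product]
    exact sum_le_sum fun b hb => hK b hb _

theorem sum_le_n1 {A : Type} (c : A →₀ ℝ) (s : Finset A) : ∑ a ∈ s, |c a| ≤ n1 c := by
  classical
  refine (sum_le_sum_of_subset_of_nonneg (t := s ∪ c.support) subset_union_left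
    fun _ _ _ => abs_nonneg _).trans (le_of_eq ?_)
  exact (sum_subset subset_union_right fun a _ n => by
    rw [Finsupp.notMem_support_iff.1 n, abs_zero]).symm

theorem n1_nn {A : Type} (c : A →₀ ℝ) : 0 ≤ n1 c := sum_nonneg fun _ _ => abs_nonneg _

variable {J V E T P H : Type} [Group J] [MulAction J V] [MulAction J E] [MulAction J T]
  (S : Src J V E T) {d : P → P → ℕ} {δ : ℕ} {N : ℕ → ℕ} (mem : H → P → Prop) (f : V → P)

open Classical in
/-- the indicator of the preimage of a half space -/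
def iU (h : H) (x : V) : ℝ := if mem h (f x) then 1 else 0

namespace Src

/-- its coboundary -/
def Zc (z : H × E) : ℝ := iU mem f z.1 (S.tgt z.2) - iU mem f z.1 (S.src z.2)

theorem B_sum (g : J) (σ : T) (F : E → ℝ) :
    ((S.B (g • σ)).sum fun e a => a * F e) = (S.B σ).sum fun e a => a * F (g • e) := by
  have : S.B (g • σ) = Finsupp.equivMapDomain (MulAction.toPerm g) (S.B σ) := by
    ext e
    rw [Finsupp.equivMapDomain_apply, ← S.B_smul g σ]
    simp
  rw [this, Finsupp.sum_equivMapDomain]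
  rfl

theorem B_bdd : ∃ (b : ℕ) (β : ℝ), ∀ σ, (S.B σ).support.card ≤ b ∧ n1 (S.B σ) ≤ β := by
  have e : ∀ (g : J) σ, S.B (g • σ) = Finsupp.equivMapDomain (MulAction.toPerm g) (S.B σ) :=
    fun g σ => by
      ext e
      rw [Finsupp.equivMapDomain_apply, ← S.B_smul g σ]
      simp
  obtain ⟨b, hb⟩ := S.fT.bdd (fun σ => (S.B σ).support.card) fun g σ => by
    rw [e]; exact card_map _
  obtain ⟨β, hβ⟩ := S.fT.bdd (fun σ => n1 (S.B σ)) fun g σ => by
    rw [e, n1, Finsupp.sum_equivMapDomain, n1]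
  exact ⟨b, β, fun σ => ⟨hb σ, hβ σ⟩⟩

variable {S mem f}

theorem Zc_abs (z : H × E) : |S.Zc mem f z| ≤ 1 := by
  unfold Zc iU; split_ifs <;> norm_num

theorem Zc_zero {z : H × E} (h : ¬S.Cr mem f z) : S.Zc mem f z = 0 := by
  unfold Zc iU; rw [propext (not_not.1 h), sub_self]

variable [MulAction J P] [MulAction J H] {D ρ R : ℕ} {ε : ℝ} {ψ : H × E → H × E → ℝ}
  (hψ : Pu J (S.Ad d mem f D ρ) R ε ψ) (hB : ∀ z, (Bl (S.Ad d mem f D ρ) R z).Finite)
include hψ hB

omit [MulAction J P] in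
theorem sum_ψ (y : H × E) (u : Finset (H × E)) : ∑ z ∈ u, ψ z y ≤ 1 := by
  classical
  rw [← hψ.one y (u ∪ (hB y).toFinset) fun z hz =>
    mem_union_right _ ((hB y).mem_toFinset.2 (hψ.sup _ _ hz).2)]
  exact sum_le_sum_of_subset_of_nonneg subset_union_left fun _ _ _ => hψ.nn _ _

omit [MulAction J P] in
theorem cell_bd (hd : HG d δ N) (hw : Wls d mem) {l b Sg : ℕ} {β : ℝ} (hε : 0 ≤ ε)
    (hl : ∀ e, d (f (S.src e)) (f (S.tgt e)) ≤ l)
    (hb : ∀ σ, (S.B σ).support.card ≤ b ∧ n1 (S.B σ) ≤ β)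
    (hS : ∀ e, {h | S.Cr mem f (h, e) ∧ ¬S.Reg d mem f D ρ (h, e)}.ncard ≤ Sg) (σ : T)
    (u : Finset (H × E)) :
    ∑ z ∈ u, |(S.B σ).sum fun e a => a * (ψ z (z.1, e) * S.Zc mem f (z.1, e))| ≤
      β * (12 * ε * (b * (2 * l)) + b * Sg) := by
  classical
  have hβ : 0 ≤ β := (n1_nn _).trans (hb σ).2
  have fc := fun e => cr_card hd hw hl e
  have fs : ∀ e, {h | S.Cr mem f (h, e) ∧ ¬S.Reg d mem f D ρ (h, e)}.Finite := fun e =>
    (fc e).1.subset fun _ h => h.1
  let Hc : Finset H := (S.B σ).support.biUnion fun e => (fc e).1.toFinset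
  let Hb : Finset H := (S.B σ).support.biUnion fun e => (fs e).toFinset
  have c1 : Hc.card ≤ b * (2 * l) := (card_biUnion_le_card_mul _ _ (2 * l) fun e _ => by
    rw [← Set.ncard_eq_toFinset_card _ (fc e).1]; exact (fc e).2).trans
      (Nat.mul_le_mul_right _ (hb σ).1)
  have c2 : Hb.card ≤ b * Sg := (card_biUnion_le_card_mul _ _ Sg fun e _ => by
    rw [← Set.ncard_eq_toFinset_card _ (fs e)]; exact hS e).trans
      (Nat.mul_le_mul_right _ (hb σ).1)
  rw [← sum_filter_of_ne (p := fun z => z.1 ∈ Hc) fun z _ n => ?_,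
    ← sum_fiberwise_of_maps_to (t := Hc) (g := Prod.fst) fun z hz => (mem_filter.1 hz).2]
  swap
  · by_contra c
    refine n (abs_eq_zero.2 (sum_eq_zero fun e he => ?_))
    simp only [Zc_zero (z := (z.1, e)) fun k => c (mem_biUnion.2 ⟨e, he, (fc e).1.mem_toFinset.2 k⟩),
      mul_zero]
  have key : ∀ h ∈ Hc, ∀ v : Finset (H × E), (∀ z ∈ v, z.1 = h) →
      ∑ z ∈ v, |(S.B σ).sum fun e a => a * (ψ z (z.1, e) * S.Zc mem f (z.1, e))| ≤
        β * (12 * ε) + if h ∈ Hb then β else 0 := fun h hh v hv => by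
    split_ifs with c
    · have : ∑ z ∈ v, |(S.B σ).sum fun e a => a * (ψ z (z.1, e) * S.Zc mem f (z.1, e))| ≤
          ∑ z ∈ v, ∑ e ∈ (S.B σ).support, |S.B σ e| * ψ z (h, e) := sum_le_sum fun z hz => by
        rw [hv z hz]
        refine (abs_sum_le_sum_abs _ _).trans (sum_le_sum fun e _ => ?_)
        rw [abs_mul, abs_mul, abs_of_nonneg (hψ.nn _ _)]
        exact mul_le_mul_of_nonneg_left (mul_le_of_le_one_right (hψ.nn _ _) (Zc_abs _))
          (abs_nonneg _)
      rw [sum_comm] at this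
      refine this.trans ((sum_le_sum (g := fun e => |S.B σ e|) fun e _ => ?_).trans
        (le_add_of_nonneg_of_le (by positivity) (hb σ).2))
      rw [← mul_sum]
      exact mul_le_of_le_one_right (abs_nonneg _) (sum_ψ hψ hB _ _)
    · obtain ⟨e0, h0, k0⟩ := mem_biUnion.1 hh
      have rg : ∀ e ∈ (S.B σ).support, S.Cr mem f (h, e) → S.Reg d mem f D ρ (h, e) :=
        fun e he k => by_contra fun n => c (mem_biUnion.2 ⟨e, he, (fs e).mem_toFinset.2 ⟨k, n⟩⟩)
      have cy := S.cyc σ (iU mem f h)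
      have : ∑ z ∈ v, |(S.B σ).sum fun e a => a * (ψ z (z.1, e) * S.Zc mem f (z.1, e))| ≤
          ∑ z ∈ v, ∑ e ∈ (S.B σ).support,
            |S.B σ e| * (|ψ z (h, e) - ψ z (h, e0)| * |S.Zc mem f (h, e)|) :=
        sum_le_sum fun z hz => by
          rw [hv z hz]
          have e1 : ((S.B σ).sum fun e a => a * (ψ z (h, e) * S.Zc mem f (h, e))) =
              ∑ e ∈ (S.B σ).support, S.B σ e * ((ψ z (h, e) - ψ z (h, e0)) * S.Zc mem f (h, e)) := by
            rw [← sub_zero (Finsupp.sum _ _), ← mul_zero (ψ z (h, e0)), ← cy, Finsupp.sum,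
              Finsupp.sum, mul_sum, ← sum_sub_distrib]
            exact sum_congr rfl fun e _ => by rw [Zc]; ring
          rw [e1]
          exact (abs_sum_le_sum_abs _ _).trans (sum_le_sum fun e _ => by rw [abs_mul, abs_mul])
      rw [sum_comm] at this
      refine this.trans ((sum_le_sum (g := fun e => |S.B σ e| * (12 * ε)) fun e he => ?_).trans ?_)
      · rw [← mul_sum]
        refine mul_le_mul_of_nonneg_left ?_ (abs_nonneg _)
        by_cases k : S.Cr mem f (h, e)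
        · refine le_trans (sum_le_sum fun z _ => mul_le_of_le_one_right (abs_nonneg _) (Zc_abs _))
            (hψ.osc _ _ ⟨rg e he k, rg e0 h0 ((fc e0).1.mem_toFinset.1 k0), rfl, σ,
              Finsupp.mem_support_iff.1 he, Finsupp.mem_support_iff.1 h0⟩ v)
        · simp only [Zc_zero k, abs_zero, mul_zero, sum_const_zero]; positivity
      · rw [← sum_mul, add_zero]
        exact mul_le_mul_of_nonneg_right (hb σ).2 (by positivity)
  refine (sum_le_sum fun h hh => key h hh _ fun z hz => (mem_filter.1 hz).2).trans ?_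
  rw [sum_add_distrib, sum_const, sum_ite_mem, sum_const, nsmul_eq_mul, nsmul_eq_mul]
  have c3 : ((Hc ∩ Hb).card : ℝ) ≤ b * Sg := by
    exact_mod_cast (card_le_card inter_subset_right).trans c2
  have c4 : (Hc.card : ℝ) ≤ b * (2 * l) := by exact_mod_cast c1
  have := mul_le_mul_of_nonneg_right c4 (by positivity : 0 ≤ β * (12 * ε))
  nlinarith

/-- **small mass** -/
theorem mass (hA : Act J d mem) (hf : ∀ (g : J) x, f (g • x) = g • f x) (hd : HG d δ N)
    (hw : Wls d mem) {l : ℕ} (hl : ∀ e, d (f (S.src e)) (f (S.tgt e)) ≤ l) (σT : Sec J T) {K : ℝ}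
    (hK : ∀ σ (u : Finset (H × E)),
      ∑ z ∈ u, |(S.B σ).sum fun e a => a * (ψ z (z.1, e) * S.Zc mem f (z.1, e))| ≤ K) :
    ∃ (φ : H → V → ℝ) (Bw : ℝ), (∀ x (s : Finset H), ∑ h ∈ s, |φ h x - iU mem f h x| ≤ Bw) ∧
      ∀ e (s : Finset H), ∑ h ∈ s, |φ h (S.tgt e) - φ h (S.src e)| ≤ S.C * (σT.s.card * K) := by
  classical
  obtain ⟨σ⟩ := S.fE.sec
  have fin : ∀ z : H × E, (Function.support fun e => ψ z (z.1, e) * S.Zc mem f (z.1, e)).Finite :=
    fun z => ((hB z).image Prod.snd).subset fun e he =>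
      ⟨_, (hψ.sup _ _ (left_ne_zero_of_mul he)).1, rfl⟩
  let Ω : H × E → E →₀ ℝ := fun z => Finsupp.ofSupportFinite _ (fin z)
  have hΩ : ∀ z e, Ω z e = ψ z (z.1, e) * S.Zc mem f (z.1, e) := fun _ _ => rfl
  have Ωs : ∀ (g : J) z e, Ω (g • z) (g • e) = Ω z e := fun g z e => by
    rw [hΩ, hΩ, ← hψ.smul g z]
    simp only [Zc, iU, Prod.smul_fst, S.src_smul, S.tgt_smul, hf, hA.mem, Prod.smul_mk]
  have Ω0 : ∀ z e, ¬S.Cr mem f z → Ω z e = 0 := fun z e n => by
    rw [hΩ]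
    by_contra c
    have := eq_of_Bl (fun r => n r.cr) (hψ.sup _ _ (left_ne_zero_of_mul c)).1
    exact c (by rw [this, Zc_zero n, mul_zero])
  choose W0 t0 h0 using fun z => S.iso (Ω z)
  have z0 := (z0_card hd hw hl σ.s).1
  let Z1 := z0.toFinset.filter fun z => σ.c z.2 = 1
  have nf : ∀ z, S.Cr mem f z → (σ.c z.2)⁻¹ • z ∈ Z1 := fun z hz => mem_filter.2
    ⟨z0.mem_toFinset.2 ⟨(cr_smul hA hf _ _).2 hz, by rw [Prod.smul_snd, ← σ.r_eq]; exact σ.mem _⟩,
      by rw [Prod.smul_snd, σ.c_smul, inv_mul_cancel]⟩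
  have inj : ∀ (X : Type) [MulAction J X], Fc J X → ∀ x : X,
      Function.Injective fun z : H × E => ((σ.c z.2)⁻¹ • z, (σ.c z.2)⁻¹ • x) := fun X _ hX x z z' e => by
    have e1 := congrArg Prod.fst e
    have e2 := congrArg Prod.snd e
    simp only at e1 e2
    have := hX.free (σ.c z'.2 * (σ.c z.2)⁻¹) x (by rw [mul_smul, e2, smul_inv_smul])
    rw [mul_inv_eq_one.1 this] at e1
    exact MulAction.injective _ e1
  let W : H × E → V → ℝ := fun z x =>
    if S.Cr mem f z then W0 ((σ.c z.2)⁻¹ • z) ((σ.c z.2)⁻¹ • x) else 0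
  have Wf : ∀ x, {z | W z x ≠ 0}.Finite := fun x => by
    refine Set.Finite.of_injOn (t := ↑(Z1 ×ˢ Z1.biUnion fun ν => (W0 ν).support)) (fun z hz => ?_)
      (inj V S.fV x).injOn (Finset.finite_toSet _)
    have c : S.Cr mem f z := by_contra fun n => hz (if_neg n)
    refine mem_coe.2 (mem_product.2 ⟨nf z c, mem_biUnion.2 ⟨_, nf z c, ?_⟩⟩)
    exact Finsupp.mem_support_iff.2 fun n => hz ((if_pos c).trans n)
  have Ws : ∀ h x (u : Finset E), (∀ e, W (h, e) x ≠ 0 → e ∈ u) →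
      ∑ᶠ e, W (h, e) x = ∑ e ∈ u, W (h, e) x := fun h x u hu =>
    finsum_eq_sum_of_support_subset _ hu
  refine ⟨fun h x => iU mem f h x - ∑ᶠ e, W (h, e) x, ∑ ν ∈ Z1, n1 (W0 ν), fun x s => ?_,
    fun e s => ?_⟩
  · let u := (Wf x).toFinset.image Prod.snd
    have : ∀ h, |iU mem f h x - ∑ᶠ e, W (h, e) x - iU mem f h x| ≤ ∑ e ∈ u, |W (h, e) x| :=
      fun h => by
        rw [sub_sub_cancel_left, abs_neg, Ws h x u fun e he =>
          mem_image.2 ⟨_, (Wf x).mem_toFinset.2 he, rfl⟩]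
        exact abs_sum_le_sum_abs _ _
    refine (sum_le_sum fun h _ => this h).trans ?_
    rw [← sum_product' (f := fun h e => |W (h, e) x|),
      ← sum_filter_of_ne (p := S.Cr mem f) fun z _ n => by_contra fun c => n (by simp [W, c])]
    refine le_trans (le_of_eq (sum_congr rfl fun z hz => ?_)) (sum_inj _ _ (inj V S.fV x).injOn Z1
      (fun z hz => nf z (mem_filter.1 hz).2) (fun ν y => |W0 ν y|) (fun _ _ => abs_nonneg _) _
      fun ν _ s => sum_le_n1 _ s)
    simp only [W, if_pos (mem_filter.1 hz).2]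
  let u := (((Wf (S.src e)).toFinset ∪ (Wf (S.tgt e)).toFinset) ∪
    s.biUnion fun h => (hB (h, e)).toFinset).image Prod.snd
  have : ∀ h ∈ s, |iU mem f h (S.tgt e) - ∑ᶠ e', W (h, e') (S.tgt e) -
      (iU mem f h (S.src e) - ∑ᶠ e', W (h, e') (S.src e))| ≤
      ∑ e' ∈ u, |Ω (h, e') e - (W (h, e') (S.tgt e) - W (h, e') (S.src e))| := fun h hh => by
    rw [Ws h _ u fun e' he => mem_image.2 ⟨_, mem_union_left _ (mem_union_right _
      ((Wf _).mem_toFinset.2 he)), rfl⟩, Ws h _ u fun e' he => mem_image.2 ⟨_, mem_union_left _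
      (mem_union_left _ ((Wf _).mem_toFinset.2 he)), rfl⟩]
    refine le_trans (le_of_eq (congrArg _ ?_)) (abs_sum_le_sum_abs _ _)
    have one := hψ.one (h, e) (u.image fun e' => (h, e')) fun z hz => mem_image.2 ⟨z.2,
      mem_image.2 ⟨z, mem_union_right _ (mem_biUnion.2 ⟨h, hh, (hB _).mem_toFinset.2
        (hψ.sup _ _ hz).2⟩), rfl⟩, Prod.ext (fst_of_Bl (hψ.sup _ _ hz).2).symm rfl⟩
    rw [sum_image fun _ _ _ _ k => (Prod.ext_iff.1 k).2] at one
    simp only [sum_sub_distrib, hΩ, ← sum_mul, one, Zc]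
    ring
  refine (sum_le_sum this).trans ?_
  rw [← sum_product' (f := fun h e' => |Ω (h, e') e - (W (h, e') (S.tgt e) - W (h, e') (S.src e))|),
    ← sum_filter_of_ne (p := S.Cr mem f) fun z _ n => by_contra fun c => n (by simp [W, c, Ω0 z e c])]
  refine le_trans (le_of_eq (sum_congr rfl fun z hz => ?_)) ((sum_inj _ _ (inj E S.fE e).injOn Z1
    (fun z hz => nf z (mem_filter.1 hz).2)
    (fun ν y => |Ω ν y - (W0 ν (S.tgt y) - W0 ν (S.src y))|) (fun _ _ => abs_nonneg _) _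
    fun ν _ s => h0 ν s).trans ?_)
  · simp only [W, if_pos (mem_filter.1 hz).2, Ωs, S.src_smul, S.tgt_smul]
  rw [← mul_sum]
  refine mul_le_mul_of_nonneg_left ?_ S.C_nn
  refine (sum_le_sum fun ν hν => sum_le_sum_of_subset_of_nonneg (t := Z1.biUnion t0)
    (subset_biUnion_of_mem t0 hν) fun _ _ _ => abs_nonneg _).trans ?_
  rw [← sum_product' (f := fun ν τ => |(S.B τ).sum fun e a => a * Ω ν e|), ← nsmul_eq_mul,
    ← sum_const]
  refine le_trans (le_of_eq (sum_congr rfl fun p _ => ?_)) (sum_inj _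
    (fun p : (H × E) × T => (σT.r p.2, (σT.c p.2)⁻¹ • p.1)) (fun p hp p' hp' k => ?_) σT.s
    (fun p _ => σT.mem _) (fun τ z => |(S.B τ).sum fun e a => a * Ω z e|) (fun _ _ => abs_nonneg _)
    _ fun τ _ s => hK τ s)
  · simp only [σT.r_eq]
    rw [← smul_inv_smul (σT.c p.2) p.2, S.B_sum]
    simp only [smul_inv_smul]
    refine congrArg _ (Finsupp.sum_congr fun e _ => ?_)
    rw [← Ωs (σT.c p.2)⁻¹, inv_smul_smul]
  · have e1 := congrArg Prod.fst k
    have e2 := congrArg Prod.snd k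
    simp only at e1 e2
    have e3 := congrArg (fun z => σ.c z.2) e2
    simp only [Prod.smul_snd, σ.c_smul, (mem_filter.1 (mem_product.1 hp).1).2,
      (mem_filter.1 (mem_product.1 hp').1).2, mul_one, inv_inj] at e3
    rw [e3] at e2
    exact Prod.ext (MulAction.injective _ e2) (by rw [← σT.cr p.2, e1, e3, σT.cr])

end Src

end Crest.Agent.N233.Fi

end
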